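import Vale.Agent.P284.H47.K.BVol
import Vale.Agent.P284.H366.K.Alg
import Vale.Agent.P284.H451.K1b
import Vale.Agent.P284.H752.K1

/-!
# P284 (helper47), K8, module (E): the mass of the leaf charts is finite
-/

open scoped Manifold ContDiff Topology ComplexConjugate ComplexOrder ENNReal InnerProductSpace
open Filter Set Metric MeasureTheory

noncomputable section

namespace Vale.Agent.P284.H47.K

open Vale.Agent.P272.K Vale.Agent.P284.H573 Vale.Agent.P284.H395 Vale.Agent.P284.H998
  Vale.Agent.P284.H998.U Vale.Agent.P284.H553.LB Vale.Agent.P284.H608.K Vale.Agent.P284.H837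
  Vale.Agent.P284.H894 Vale.Agent.P284.H894.G Vale.Agent.P284.H553.K8

/-- the determinant is monotone -/
lemma det_mono {n : ℕ} {w h : Matrix (Fin n) (Fin n) ℂ} (hw : w.PosDef)
    (hh : (h - w).PosSemidef) : w.det ≤ h.det := by
  have h1 := Vale.Agent.P284.H451.K1.k1bStmt.vmono n 0 w h hw hh
    (ContinuousAlternatingMap.constOfIsEmpty ℂ (Cm n) (Fin 0) (1 : ℂ))
  have h2 : ∀ g : Matrix (Fin n) (Fin n) ℂ,
      hn g (ContinuousAlternatingMap.constOfIsEmpty ℂ (Cm n) (Fin 0) (1 : ℂ))
        (ContinuousAlternatingMap.constOfIsEmpty ℂ (Cm n) (Fin 0) (1 : ℂ)) = 1 := by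
    intro g
    simp [hn, ev]
  rw [h2, h2, mul_one, mul_one] at h1
  exact h1

/-- the matrix `BB` is positive semidefinite -/
lemma BB_psd {n R : ℕ} (b : Cm n → Cm R) (z : Cm n) : (BB b z).PosSemidef := by
  have h1 : BB b z = (Matrix.of fun (j : Fin n) (i : Fin R) => fderiv ℂ b z (Pi.single j 1) i) *
      (Matrix.of fun (j : Fin n) (i : Fin R) =>
        fderiv ℂ b z (Pi.single j 1) i).conjTranspose := by
    ext j k
    simp [BB, Matrix.mul_apply, Matrix.conjTranspose_apply]
  rw [h1]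
  exact Matrix.posSemidef_self_mul_conjTranspose _

/-- the pointwise bound of the density -/
lemma pt_mass {n R : ℕ} {h ρ : Matrix (Fin n) (Fin n) ℂ} (hh : h.PosDef) {b : Cm n → Cm R}
    {z : Cm n} {c : ℝ} (hc : 0 < c) (hρ : (ρ - (c : ℂ) • BB b z).PosSemidef) :
    c ^ R * ((hn h (dF b z) (dF b z)).re * h.det.re) ≤ (ρ + h).det.re := by
  set s : ℝ := √c with hs
  have hs2 : s * s = c := Real.mul_self_sqrt hc.le
  have h1 := Vale.Agent.P284.H451.K1.k1bStmt.dec n R h hh ((s : ℂ) • fderiv ℂ b z)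
    ((s : ℂ) ^ R • dF b z) (by
      intro ξ
      rw [ContinuousAlternatingMap.smul_apply, dF_apply, smul_eq_mul]
      have h2 : (Matrix.of fun i j => ((s : ℂ) • fderiv ℂ b z) (ξ j) i) = (s : ℂ) • DM b z ξ := by
        ext i j
        simp
      rw [h2, Matrix.det_smul, Fintype.card_fin])
  have h2 : (Matrix.of fun j k => ∑ i, ((s : ℂ) • fderiv ℂ b z) (Pi.single j 1) i *
      conj (((s : ℂ) • fderiv ℂ b z) (Pi.single k 1) i)) = (c : ℂ) • BB b z := by
    ext j k
    simp only [Matrix.of_apply, Matrix.smul_apply, BB, smul_eq_mul, Finset.mul_sum,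
      smul_apply, Pi.smul_apply, map_mul, Complex.conj_ofReal]
    refine Finset.sum_congr rfl fun i _ => ?_
    rw [← hs2]
    push_cast
    ring
  rw [h2] at h1
  have h3 : ((c : ℂ) • BB b z).PosSemidef := (BB_psd b z).smul (by exact_mod_cast hc.le)
  have h4 : (h + (c : ℂ) • BB b z).PosDef := hh.add_posSemidef h3
  have h5 : (h + (c : ℂ) • BB b z).det ≤ (ρ + h).det := by
    refine det_mono h4 ?_
    have : ρ + h - (h + (c : ℂ) • BB b z) = ρ - (c : ℂ) • BB b z := by abel
    rw [this]; exact hρ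
  have h6 := (Complex.le_def.1 (h1.trans h5)).1
  have h7 : h.det.im = 0 := (Complex.lt_def.1 hh.det_pos).2.symm
  rw [Complex.mul_re, h7, zero_mul, sub_zero, Vale.Agent.P284.H366.K.hn_smul_self] at h6
  have h8 : ‖((s : ℂ) ^ R)‖ ^ 2 = c ^ R := by
    rw [norm_pow, Complex.norm_real, ← pow_mul, mul_comm R 2, pow_mul]
    congr 1
    rw [Real.norm_eq_abs, sq_abs, sq, hs2]
  rw [h8] at h6
  calc _ = h.det.re * (c ^ R * (hn h (dF b z) (dF b z)).re) := by ring
    _ ≤ _ := h6

lemma pt_mass' {n R : ℕ} {h ρ : Matrix (Fin n) (Fin n) ℂ} (hh : h.PosDef) {b : Cm n → Cm R}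
    {z : Cm n} {c : ℝ} (hc : 0 < c) (hρ : (ρ - (c : ℂ) • BB b z).PosSemidef) :
    ENNReal.ofReal (hn h (dF b z) (dF b z)).re * ENNReal.ofReal h.det.re ≤
      ENNReal.ofReal ((c ^ R)⁻¹) * ENNReal.ofReal (ρ + h).det.re := by
  have h1 := pt_mass hh hc hρ
  have h2 : 0 < c ^ R := by positivity
  rw [← ENNReal.ofReal_mul' (by
    exact (Complex.lt_def.1 hh.det_pos).1.le), ← ENNReal.ofReal_mul (by positivity)]
  refine ENNReal.ofReal_le_ofReal ?_
  rw [inv_mul_eq_div, le_div_iff₀ h2]
  linarith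

section
variable {n R m : ℕ} {X E : Type} [TopologicalSpace X] [ChartedSpace (Cm n) X]
  [IsManifold 𝓘(ℂ, Cm n) ω X]

/-- the form `dβ_1 ∧ … ∧ dβ_R` in another chart -/
lemma dF_chart {β : X → Cm R} {e e' : Chart n X} {x : X} (he : At e x) (he' : At e' x)
    (hβ : DifferentiableAt ℂ (fun z => β (e'.symm z)) (e' x)) :
    dF (fun z => β (e.symm z)) (e x) =
      (dF (fun z => β (e'.symm z)) (e' x)).compContinuousLinearMap (tau e e' x) := by
  have h1 : (fun z => β (e.symm z)) =ᶠ[𝓝 (e x)]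
      fun z => (fun z => β (e'.symm z)) (e' (e.symm z)) := by
    have h2 : ∀ᶠ x' in 𝓝 x, At e' x' := Vale.Agent.P284.H998.U.at_ev he'
    filter_upwards [symm_ev he h2] with z hz
    show β (e.symm z) = β (e'.symm (e' (e.symm z)))
    rw [hz.left_inv]
  have hx : e' (e.symm (e x)) = e' x := by rw [he.left_inv]
  have h2 : fderiv ℂ (fun z => β (e.symm z)) (e x) =
      (fderiv ℂ (fun z => β (e'.symm z)) (e' x)).comp (tau e e' x) := by
    have h3 := fderiv_fun_comp (g := fun z => β (e'.symm z)) (f := fun z => e' (e.symm z)) (e x)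
      (by rw [hx]; exact hβ) (transition_differentiableAt he he')
    rw [hx] at h3
    rw [h1.fderiv_eq]
    exact h3
  ext ξ
  rw [dF, h2]
  rfl

/-- the density in any chart -/
lemma mF_eq {Z : Set X} {h : Chart n X → Cm n → Matrix (Fin n) (Fin n) ℂ} (hh : KOff Z h)
    {β : X → Cm R} {x : X} (hx : x ∉ Z) {e : Chart n X} (he : At e x)
    (hβ : DifferentiableAt ℂ (fun z => β (e.symm z)) (e x)) :
    mF h β x = (hn (h e (e x)) (dF (fun z => β (e.symm z)) (e x))
      (dF (fun z => β (e.symm z)) (e x))).re := by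
  have he₀ : At (chartAt (Cm n) x : Chart n X) x := ⟨chart_mem_atlas _ _, mem_chart_source _ _⟩
  rw [mF, dF_chart he₀ he hβ, hn_chart Vale.Agent.P284.H752.k1Stmt hh he₀ he hx]

end

/-- continuity of the product -/
lemma hn_contAt {n p : ℕ} {w : Cm n → Matrix (Fin n) (Fin n) ℂ} {A : Cm n → Af n p} {z : Cm n}
    (hw : ∀ j k, ContDiffAt ℝ ∞ (fun z => w z j k) z) (hpos : (w z).PosDef)
    (hA : ∀ s, ContinuousAt (fun z => ev (A z) s) z) :
    ContinuousAt (fun z => hn (w z) (A z) (A z)) z := by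
  have h1 : Vale.Agent.P272.K.C2.MC ∞ w z := fun j k => hw j k
  have h2 : ∀ j k, ContinuousAt (fun z => (w z)⁻¹ j k) z := fun j k =>
    (h1.inv hpos.det_pos.ne' j k).continuousAt
  unfold hn
  refine continuousAt_const.mul ?_
  refine tendsto_finsetSum _ fun s _ => tendsto_finsetSum _ fun t _ => ?_
  refine ContinuousAt.mul ((hA s).mul (Complex.continuous_conj.continuousAt.comp (hA t))) ?_
  exact tendsto_finsetProd _ fun i _ => h2 _ _

lemma ev_dF_contAt {n R : ℕ} {b : Cm n → Cm R} {z : Cm n} (hb : AnalyticAt ℂ b z)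
    (s : Fin R → Fin n) : ContinuousAt (fun z => ev (dF b z) s) z := by
  have h1 : (fun z => ev (dF b z) s) =
      fun z => (DM b z fun i => (Pi.single (s i) 1 : Cm n)).det := by
    funext z
    exact dF_apply b z _
  rw [h1]
  exact (detDM_an' hb _).continuousAt

/-- **(E)** -/
theorem eStmt : Vale.Agent.P284.H553.K8.EStmt := by
  intro n R m X _ _ _ _ _ _ _ w h ρ E _ p H _ _ _ v hH γ b₀ r N β x₀ hL K' hK' hKb c hc hρ _ μ hμ
  have : SecondCountableTopology X := ChartedSpace.secondCountable_of_sigmaCompact (Cm n) X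
  have := borel_compl (Zs p v)
  have hh := hH.koff
  set S : Set (MZ p v) := {x | x.1 ∈ N ∧ β x.1 ∈ K'} with hS
  have hSm : MeasurableSet S := by
    refine IsClosed.measurableSet ?_
    rw [← closure_subset_iff_isClosed]
    intro x hx
    refine hL.closed K' hKb hK' x.1 x.2 ?_
    exact closure_mono (image_subset_iff.2 fun y hy => hy)
      (mem_closure_image continuous_subtype_val.continuousAt hx)
  have hat : ∀ x : X, At (chartAt (Cm n) x : Chart n X) x :=
    fun x => ⟨chart_mem_atlas _ _, mem_chart_source _ _⟩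
  choose U hU hUm using fun x : X => hH.mass (chartAt (Cm n) x) x (hat x)
  set V : X → Set X := fun x => (chartAt (Cm n) x).source ∩
    (chartAt (Cm n) x) ⁻¹' interior (U x) with hV
  have hVo : ∀ x, IsOpen (V x) := fun x =>
    (chartAt (Cm n) x).isOpen_inter_preimage isOpen_interior
  have hVx : ∀ x, x ∈ V x := fun x => ⟨mem_chart_source _ _, mem_interior_iff_mem_nhds.2 (hU x)⟩
  obtain ⟨t, -, ht⟩ := isCompact_univ.elim_nhds_subcover V fun x _ => (hVo x).mem_nhds (hVx x)
  have hsub : S ⊆ ⋃ a : t, (S ∩ {x : MZ p v | x.1 ∈ V a.1}) := by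
    intro x hx
    have h1 := ht (mem_univ x.1)
    simp only [mem_iUnion] at h1
    obtain ⟨a, ha, hxa⟩ := h1
    exact mem_iUnion.2 ⟨⟨a, ha⟩, hx, hxa⟩
  refine ((lintegral_mono_set hsub).trans (lintegral_iUnion_le _ _)).trans_lt ?_
  rw [tsum_fintype]
  refine ENNReal.sum_lt_top.2 fun a _ => ?_
  set e : Chart n X := chartAt (Cm n) a.1 with he
  have hea : e ∈ atlas (Cm n) X := chart_mem_atlas _ _
  set T : Set (MZ p v) := S ∩ {x : MZ p v | x.1 ∈ V a.1} with hT
  have hTm : MeasurableSet T :=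
    hSm.inter ((hVo a.1).preimage continuous_subtype_val).measurableSet
  set g : MZ p v → ℝ≥0∞ := fun x => ENNReal.ofReal (hn (h e (e x.1))
    (dF (fun z => β (e.symm z)) (e x.1)) (dF (fun z => β (e.symm z)) (e x.1))).re with hg
  have hTat : ∀ x ∈ T, At e x.1 := fun x hx => ⟨hea, hx.2.1⟩
  have h1 : ∀ x ∈ T, ENNReal.ofReal (mF h β x.1) = g x := by
    intro x hx
    rw [mF_eq hh x.2 (hTat x hx) (hL.an x.1 hx.1.1 e (hTat x hx)).differentiableAt]
  have hgm : Measurable (T.indicator g) := by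
    classical
    rw [← piecewise_eq_indicator]
    refine ContinuousOn.measurable_piecewise ?_ continuousOn_const hTm
    intro x hx
    refine ContinuousAt.continuousWithinAt ?_
    have hxe := hTat x hx
    have h2 : ContinuousAt (fun z => hn (h e z) (dF (fun z => β (e.symm z)) z)
        (dF (fun z => β (e.symm z)) z)) (e x.1) :=
      hn_contAt (hh.smooth e x.1 hxe x.2) (hh.posDef e x.1 hxe x.2)
        fun s => ev_dF_contAt (hL.an x.1 hx.1.1 e hxe) s
    have h3 : ContinuousAt (fun x : MZ p v => e x.1) x :=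
      ContinuousAt.comp (g := e) (f := Subtype.val) (e.continuousAt hxe.2)
        continuous_subtype_val.continuousAt
    exact ENNReal.continuous_ofReal.continuousAt.comp
      (Complex.continuous_re.continuousAt.comp
        (ContinuousAt.comp (g := fun z => hn (h e z) (dF (fun z => β (e.symm z)) z)
          (dF (fun z => β (e.symm z)) z)) (f := fun x : MZ p v => e x.1) h2 h3))
  rw [setLIntegral_congr_fun hTm h1, ← lintegral_indicator hTm,
    vol_chart hH.vd hμ hea hgm fun x hx => indicator_of_notMem (s := T) (fun h => hx h.2.1) g]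
  have hA : MeasurableSet (e.target ∩ e.symm ⁻¹' (Zs p v)ᶜ) :=
    (e.symm.isOpen_inter_preimage hH.vd.closed.isOpen_compl).measurableSet
  have h2 : ∀ z ∈ e.target ∩ e.symm ⁻¹' (Zs p v)ᶜ,
      (T.indicator g) (lift (Zs p v) (e.symm z)) * ENNReal.ofReal ((h e z).det.re) ≤
      (U a.1 ∩ e.symm ⁻¹' (Zs p v)ᶜ).indicator (fun z => ENNReal.ofReal ((c ^ R)⁻¹) *
        ENNReal.ofReal (ρ e z + h e z).det.re) z := by
    intro z hz
    have h3 : (lift (Zs p v) (e.symm z)).1 = e.symm z := lift_val hz.2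
    by_cases hzT : lift (Zs p v) (e.symm z) ∈ T
    · have h4 : e (e.symm z) = z := e.right_inv hz.1
      have h5 : z ∈ U a.1 := by
        have := hzT.2.2
        rw [h3] at this
        have h6 : e (e.symm z) ∈ interior (U a.1) := this
        rw [h4] at h6
        exact interior_subset h6
      rw [indicator_of_mem hzT, indicator_of_mem (show z ∈ U a.1 ∩ e.symm ⁻¹' (Zs p v)ᶜ from
        ⟨h5, hz.2⟩)]
      simp only [hg, h3, h4]
      have hxe : At e (e.symm z) := ⟨hea, e.map_target hz.1⟩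
      have hN : e.symm z ∈ N := by
        have := hzT.1.1
        rwa [h3] at this
      have hK : β (e.symm z) ∈ K' := by
        have := hzT.1.2
        rwa [h3] at this
      have h7 := hρ (e.symm z) hN hK e hxe
      have h8 := hh.posDef e (e.symm z) hxe hz.2
      rw [h4] at h7 h8
      exact pt_mass' h8 hc h7
    · rw [indicator_of_notMem hzT, zero_mul]
      exact zero_le
  refine (setLIntegral_mono' hA h2).trans_lt ?_
  refine (setLIntegral_le_lintegral _ _).trans_lt ?_
  refine (lintegral_indicator_le _ _).trans_lt ?_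
  rw [lintegral_const_mul' _ _ ENNReal.ofReal_ne_top]
  exact ENNReal.mul_lt_top ENNReal.ofReal_lt_top (hUm a.1)

end Vale.Agent.P284.H47.K
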