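import Vale.Agent.P284.H47.K.Kl
import Vale.Agent.P284.H47.K.Mass
import Vale.Agent.P284.H553.K8.Loc2
import Vale.Agent.P284.H286.K.EngD
import Vale.Agent.P284.H205.K.Main
import Vale.Agent.P284.H279.K.K2

/-!
# P284 (helper47), K8, the engine half: a holomorphic form near `s₀`
-/

open scoped Manifold ContDiff Topology ComplexConjugate ComplexOrder ENNReal InnerProductSpace
open Filter Set Metric MeasureTheory

noncomputable section

namespace Vale.Agent.P284.H47.K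

open Vale.Agent.P272.K Vale.Agent.P284.H573 Vale.Agent.P284.H395 Vale.Agent.P284.H998
  Vale.Agent.P284.H998.U Vale.Agent.P284.H553.LB Vale.Agent.P284.H608.K Vale.Agent.P284.H837
  Vale.Agent.P284.H894 Vale.Agent.P284.H894.G Vale.Agent.P284.H553.K8

/-- **K3** -/
theorem k3Stmt (n : ℕ) (M : Type) [TopologicalSpace M] [T2Space M] [MeasurableSpace M]
    [BorelSpace M] (K : KA n M) : K3Stmt n M K :=
  H205.K.k3_of H752.k1Stmt (H279.K.k2Adj_of H752.k1Stmt) (H279.K.k2BK_of H752.k1Stmt)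
    (H279.K.k2BK0_of H752.k1Stmt) n M K

/-- `|ℓ₀ γ|² ≤ ‖γ‖²` -/
lemma rat_le_one {R : ℕ} {H : Type} [NormedAddCommGroup H] [InnerProductSpace ℂ H]
    (γ : Cm R → H) (b₀ b : Cm R) : rat γ (l0 γ b₀) b ≤ 1 := by
  have h2 : ‖l0 γ b₀ (γ b)‖ ≤ ‖γ b‖ := by
    rw [norm_l0]
    rcases eq_or_ne (γ b₀) 0 with h | h
    · rw [h, norm_zero, inv_zero, zero_mul]; positivity
    · have h1 : 0 < ‖γ b₀‖ := norm_pos_iff.2 h
      rw [inv_mul_le_iff₀ h1]
      exact norm_inner_le_norm _ _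
  have h3 : ‖l0 γ b₀ (γ b)‖ ^ 2 ≤ ‖γ b‖ ^ 2 := pow_le_pow_left₀ (norm_nonneg _) h2 2
  rw [rat]
  exact div_le_one_of_le₀ h3 (by positivity)

section
variable {n R m : ℕ} {X E : Type} [TopologicalSpace X] [ChartedSpace (Cm n) X] [TopologicalSpace E]
  {H : Type} [NormedAddCommGroup H] [InnerProductSpace ℂ H] [CompleteSpace H]
  {p : E → X} {v : E → Chart n X → (Fin R → Cm n) → H}
  {γ : Cm R → H} {b₀ : Cm R} {r : ℝ} {N : Set X} {β : X → Cm R} {x₀ : X}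
  [IsManifold 𝓘(ℂ, Cm n) ω X]

/-- the lower bound of `ρ` over a compact subset of the ball -/
theorem exists_lower (hv : HForm n R m p H v) (hp : Continuous p) (hm : 1 ≤ m)
    (L : Lf m p v γ b₀ r N β x₀) {ρ : Chart n X → Cm n → Matrix (Fin n) (Fin n) ℂ}
    (hρ : RhoF p v ρ) {K : Set (Cm R)} (hK : IsCompact K) (hKb : K ⊆ ball b₀ r) :
    ∃ c : ℝ, 0 < c ∧ ∀ x ∈ N, β x ∈ K → ∀ e : Chart n X, At e x →
      (ρ e (e x) - (c : ℂ) • BB (fun z => β (e.symm z)) (e x)).PosSemidef := by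
  obtain ⟨c, hc, h1⟩ := fs_lower hK (γ := γ) (fun b hb => L.γan b (hKb hb))
    (fun b hb => L.imm b (hKb hb))
  refine ⟨c, hc, fun x hx hxK e he => ?_⟩
  obtain ⟨y, rfl, hnf⟩ := L.isNF hv hp hm hx
  have h2 := hnf e he
  rw [rho_nf hv hm hρ h2]
  refine fs_comp h2.ban h2.γan h2.imm.1 ?_
  have h3 : β (e.symm (e (p y))) = β (p y) := by rw [he.left_inv]
  simp only [h3]
  exact h1 _ hxK

omit [CompleteSpace H] [IsManifold 𝓘(ℂ, Cm n) ω X] in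
/-- the number `Q < 1` -/
theorem exists_Q (L : Lf m p v γ b₀ r N β x₀) :
    ∃ Q : ℝ, 0 ≤ Q ∧ Q < 1 ∧ ∀ b ∈ annu b₀ r, rat γ (l0 γ b₀) b ≤ Q := by
  have hb : ∀ b ∈ annu b₀ r, b ∈ ball b₀ r := annu_sub b₀ L.pos
  have h0 : b₀ ∈ ball b₀ r := mem_ball_self L.pos
  refine rat_sup (annu_compact b₀ r) (L.imm b₀ h0).1 (fun b h => (L.γan b (hb b h)).continuousAt)
    (fun b h => (L.imm b (hb b h)).1) fun b h a ha => ?_
  have h1 := L.inj b (hb b h) a ha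
  rw [h1] at h
  exact h.2 (mem_ball_self (by have := L.pos; positivity))

end

section
variable {n R m : ℕ} {X : Type} [TopologicalSpace X] [T2Space X] [CompactSpace X]
    [ChartedSpace (Cm n) X] [IsManifold 𝓘(ℂ, Cm n) ω X] [MeasurableSpace X] [BorelSpace X]
    {w h ρ : Chart n X → Cm n → Matrix (Fin n) (Fin n) ℂ}
    {E : Type} [TopologicalSpace E] {p : E → X} {H : Type} [NormedAddCommGroup H]
    [InnerProductSpace ℂ H] [CompleteSpace H] {v : E → Chart n X → (Fin R → Cm n) → H}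
    {γ : Cm R → H} {b₀ : Cm R} {r : ℝ} {N : Set X} {β : X → Cm R} {x₀ : X}

/-- `s₀` is square integrable -/
theorem nl_s0 (hC : H553.K8.CStmt) (Hy : Hyp n R m X w h ρ E p H v) (F : Lf m p v γ b₀ r N β x₀)
    [Nonempty (MZ p v)] {f : Cm R → ℂ} (hf : ContDiff ℝ ∞ f) (hfc : HasCompactSupport f)
    (hfs : tsupport f ⊆ closedBall b₀ (r / 2)) (j : ℕ) (μ : Measure (MZ p v))
    (hμ : VolV p v (Zs p v) h μ) :
    (kaV Hy.vd h Hy.koff j μ hμ).nl ((H553.K8.klV Hy.vd h Hy.koff j μ hμ).s0 m γ (l0 γ b₀) N β f) < ⊤ := by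
  have hsub : closedBall b₀ (r / 2) ⊆ ball b₀ r := closedBall_subset_ball (by
    have := F.pos; linarith)
  obtain ⟨c, hc, hcρ⟩ := exists_lower Hy.form Hy.cov.continuous Hy.hm F Hy.rhoF
    (isCompact_closedBall b₀ (r / 2)) hsub
  have hmass := eStmt n R m X w h ρ E p H v Hy γ b₀ r N β x₀ F _ (isCompact_closedBall b₀ (r / 2))
    hsub c hc hcρ μ hμ
  obtain ⟨-, -, -, h0, h1⟩ := hC n R m X w h ρ E p H v Hy γ b₀ r N β x₀ F f hf hfc
    (hfs.trans hsub) (l0 γ b₀) j _ (H553.K8.klV Hy.vd h Hy.koff j μ hμ)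
  obtain ⟨C, hCf⟩ := hf.continuous.bounded_above_of_compact_support hfc
  have hC0 : 0 ≤ C := (norm_nonneg _).trans (hCf b₀)
  set S : Set (MZ p v) := {x | x.1 ∈ N ∧ β x.1 ∈ closedBall b₀ (r / 2)} with hS
  have hle : ∀ x : MZ p v, ENNReal.ofReal ((kaV Hy.vd h Hy.koff j μ hμ).dn
      ((H553.K8.klV Hy.vd h Hy.koff j μ hμ).s0 m γ (l0 γ b₀) N β f)
      ((H553.K8.klV Hy.vd h Hy.koff j μ hμ).s0 m γ (l0 γ b₀) N β f) x).re ≤
      S.indicator (fun x => ENNReal.ofReal (C ^ 2) * ENNReal.ofReal (mF h β x.1)) x := by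
    intro x
    by_cases hx : x.1 ∈ N
    · by_cases hb : β x.1 ∈ closedBall b₀ (r / 2)
      · rw [indicator_of_mem (show x ∈ S from ⟨hx, hb⟩), ← ENNReal.ofReal_mul (by positivity),
          h1 x hx]
        have hmF : 0 ≤ mF h β x.1 := by
          have hp := Hy.koff.posDef (chartAt (Cm n) x.1) x.1 (at_chart x.1) x.2
          exact (Complex.nonneg_iff.1 (H286.K.hn_nonneg H752.k1Stmt hp _)).1
        refine ENNReal.ofReal_le_ofReal (mul_le_mul_of_nonneg_right ?_ hmF)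
        have h3 : rat γ (l0 γ b₀) (β x.1) ^ j ≤ 1 :=
          pow_le_one₀ (rat_nonneg _ _ _) (rat_le_one _ _ _)
        have h4 : ‖f (β x.1)‖ ^ 2 ≤ C ^ 2 := pow_le_pow_left₀ (norm_nonneg _) (hCf _) 2
        calc ‖f (β x.1)‖ ^ 2 * rat γ (l0 γ b₀) (β x.1) ^ j ≤ ‖f (β x.1)‖ ^ 2 * 1 :=
              mul_le_mul_of_nonneg_left h3 (by positivity)
          _ ≤ C ^ 2 := by rw [mul_one]; exact h4
      · have h2 : f (β x.1) = 0 := image_eq_zero_of_notMem_tsupport fun h' => hb (hfs h')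
        rw [h1 x hx, h2, norm_zero]
        simp
    · rw [h0 x hx]
      simp
  refine (lintegral_mono hle).trans_lt ((lintegral_indicator_le _ _).trans_lt ?_)
  rw [lintegral_const_mul' _ _ ENNReal.ofReal_ne_top]
  exact ENNReal.mul_lt_top ENNReal.ofReal_lt_top hmass

end

/-- **the engine half of K8** -/
theorem engHalf (hC : H553.K8.CStmt) (hD : H553.K8.DStmt) (eng : EngStmt)
    {n r₁ m : ℕ} {X : Type} [TopologicalSpace X] [T2Space X] [CompactSpace X]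
    [ChartedSpace (Cm n) X] [IsManifold 𝓘(ℂ, Cm n) ω X] [MeasurableSpace X] [BorelSpace X]
    {w h ρ : Chart n X → Cm n → Matrix (Fin n) (Fin n) ℂ}
    {E : Type} [TopologicalSpace E] {p : E → X} {H : Type} [NormedAddCommGroup H]
    [InnerProductSpace ℂ H] [CompleteSpace H] {v : E → Chart n X → (Fin (r₁ + 1) → Cm n) → H}
    (Hy : Hyp n (r₁ + 1) m X w h ρ E p H v) (cut : CutOff (Zs p v) h)
    {γ : Cm (r₁ + 1) → H} {b₀ : Cm (r₁ + 1)} {r : ℝ}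
    {N : Set X} {β : X → Cm (r₁ + 1)} {x₀ : X} (F : Lf m p v γ b₀ r N β x₀)
    [Nonempty (MZ p v)] (μ : Measure (MZ p v)) (hμ : VolV p v (Zs p v) h μ) :
    ∃ Q : ℝ, 0 ≤ Q ∧ Q < 1 ∧ (∀ b ∈ annu b₀ r, rat γ (l0 γ b₀) b ≤ Q) ∧ ∃ C₁ : ℝ, 0 ≤ C₁ ∧
      ∀ (j : ℕ) (a : Fin (r₁ + 1 + 1)),
        ∃ s : (kaV Hy.vd h Hy.koff (j + 1) μ hμ).Fm (r₁ + 1),
          (kaV Hy.vd h Hy.koff (j + 1) μ hμ).IsForm s ∧
          (kaV Hy.vd h Hy.koff (j + 1) μ hμ).Hol s ∧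
          (∀ i, ∀ z ∈ ((kaV Hy.vd h Hy.koff (j + 1) μ hμ).e i).target,
            Ad ((kaV Hy.vd h Hy.koff (j + 1) μ hμ).w i z)
              (cHess ((kaV Hy.vd h Hy.koff (j + 1) μ hμ).φ i) z) (s i z) = 0) ∧
          (kaV Hy.vd h Hy.koff (j + 1) μ hμ).nl s < ⊤ ∧
          (kaV Hy.vd h Hy.koff (j + 1) μ hμ).nl
            (s - (H553.K8.klV Hy.vd h Hy.koff (j + 1) μ hμ).s0 m γ (l0 γ b₀) N β (ff b₀ r F.pos a)) ≤
            ENNReal.ofReal (C₁ * Q ^ (j + 1)) := by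
  have hBM : BorelSpace (MZ p v) := borel_compl _
  obtain ⟨Q, hQ0, hQ1, hQ⟩ := exists_Q F
  refine ⟨Q, hQ0, hQ1, hQ, ?_⟩
  obtain ⟨D, hD0, hDb⟩ := exists_D b₀ r F.pos
  have hsub : annu b₀ r ⊆ ball b₀ r := annu_sub b₀ F.pos
  obtain ⟨c, hc, hcρ⟩ := exists_lower Hy.form Hy.cov.continuous Hy.hm F Hy.rhoF
    (annu_compact b₀ r) hsub
  have hmass := eStmt n (r₁ + 1) m X w h ρ E p H v Hy γ b₀ r N β x₀ F _ (annu_compact b₀ r)
    hsub c hc hcρ μ hμ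
  set M : ℝ≥0∞ := ∫⁻ x in {x : MZ p v | x.1 ∈ N ∧ β x.1 ∈ annu b₀ r},
    ENNReal.ofReal (mF h β x.1) ∂μ with hM
  refine ⟨D / c * M.toReal, by positivity, fun j a => ?_⟩
  have hρ := kaV_cHess Hy.vd h Hy.koff (j + 1) μ hμ Hy.rhoF
  obtain ⟨hs1, hs2, hs3, -, -⟩ := hC n (r₁ + 1) m X w h ρ E p H v Hy γ b₀ r N β x₀ F
    (ff b₀ r F.pos a) (ff_smooth b₀ r F.pos a) (ff_compact b₀ r F.pos a)
    ((ff_tsupport b₀ r F.pos a).trans (closedBall_subset_ball (by have := F.pos; linarith)))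
    (l0 γ b₀) (j + 1) _ (H553.K8.klV Hy.vd h Hy.koff (j + 1) μ hμ)
  have hs4 := nl_s0 hC Hy F (ff_smooth b₀ r F.pos a) (ff_compact b₀ r F.pos a)
    (ff_tsupport b₀ r F.pos a) (j + 1) μ hμ
  have hpair := hD n r₁ m X w h ρ E p H v Hy γ b₀ r N β x₀ F
    (ff b₀ r F.pos a) (ff_smooth b₀ r F.pos a) (ff_compact b₀ r F.pos a)
    ((ff_tsupport b₀ r F.pos a).trans (closedBall_subset_ball (by have := F.pos; linarith)))
    (l0 γ b₀) (annu b₀ r) (annu_compact b₀ r) hsub (fun b hb l => dzb_ff b₀ r F.pos a hb l)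
    c hc hcρ D hD0 (hDb a) Q hQ0 hQ (j + 1) (by omega) _ (H553.K8.klV Hy.vd h Hy.koff (j + 1) μ hμ)
    (k3Stmt n (MZ p v) _) hρ M.toReal ENNReal.toReal_nonneg (by
      rw [ENNReal.ofReal_toReal hmass.ne]
      exact hM.ge)
  obtain ⟨s, h1, h2, h3, h4⟩ := eng n (MZ p v) (kaV Hy.vd h Hy.koff (j + 1) μ hμ)
    (cutV cut) (by
      intro i z hz
      rw [hρ i z hz]
      obtain ⟨x, hx, rfl, -⟩ := Fr.exists_of_target hz
      exact (Hy.rho.psd _ _ (Fr.at i hx) (i.UZ x hx)).smul (by norm_cast; positivity))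
    r₁ _ hs1 hs2 hs4 hs3 _ hpair
  refine ⟨s, h1, h2, h3, ?_, h4.trans (ENNReal.ofReal_le_ofReal ?_)⟩
  · have h5 := H286.K.nl_young H752.k1Stmt (k3Stmt n (MZ p v) _)
      (H286.K.form_sub h1 hs1) (H286.K.smooth_sub (H286.K.smooth_of_hol h2) hs2) hs1 hs2 one_pos
    rw [sub_add_cancel] at h5
    refine h5.trans_lt (ENNReal.add_lt_top.2 ⟨?_, ?_⟩)
    · exact ENNReal.mul_lt_top ENNReal.ofReal_lt_top (h4.trans_lt ENNReal.ofReal_lt_top)
    · exact ENNReal.mul_lt_top ENNReal.ofReal_lt_top hs4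
  · have h5 : D / (((j + 1 : ℕ) : ℝ) * c) ≤ D / c := by
      refine div_le_div_of_nonneg_left hD0 hc ?_
      push_cast
      nlinarith [(Nat.cast_nonneg j : (0 : ℝ) ≤ j)]
    calc D / (((j + 1 : ℕ) : ℝ) * c) * Q ^ (j + 1) * M.toReal
        ≤ D / c * Q ^ (j + 1) * M.toReal := by gcongr
      _ = D / c * M.toReal * Q ^ (j + 1) := by ring

end Vale.Agent.P284.H47.K
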