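import Vale.Agent.P284.H47.K.KaV

/-!
# P284 (helper47), K8k, part 3: completeness of `X \ Z`; the sections of `O(N)` as multi-forms
-/

open scoped Manifold ContDiff Topology ComplexConjugate ComplexOrder ENNReal InnerProductSpace
open Filter Set Metric MeasureTheory

noncomputable section

namespace Vale.Agent.P284.H47.K

open Vale.Agent.P272.K Vale.Agent.P284.H573 Vale.Agent.P284.H395 Vale.Agent.P284.H894.G
  Vale.Agent.P284.H837 Vale.Agent.P284.H335 Vale.Agent.P284.H608.K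

section
variable {n R m : ℕ} {X E : Type} [TopologicalSpace X] [ChartedSpace (Cm n) X]
  [TopologicalSpace E] {p : E → X} {H : Type} [NormedAddCommGroup H] [InnerProductSpace ℂ H]
  [CompleteSpace H] {v : E → Chart n X → (Fin R → Cm n) → H} {Z : Set X}
  [IsManifold 𝓘(ℂ, Cm n) ω X] [Nonempty {x : X // x ∉ Z}] [MeasurableSpace {x : X // x ∉ Z}]
  {hV : VD m p v Z} {h : Chart n X → Cm n → Matrix (Fin n) (Fin n) ℂ} {hh : KOff Z h} {N : ℕ}
  {μ : Measure {x : X // x ∉ Z}} {hμ : VolV p v Z h μ}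

/-- **completeness** -/
def cutV (hc : CutOff Z h) : (kaV hV h hh N μ hμ).Cut where
  χ ν x := hc.χ ν x.1
  ε := hc.ε
  sm ν i z hz := by
    change Fr p v Z at i
    change z ∈ i.c.target at hz
    have h1 := Fr.c_symm_ev hz
    obtain ⟨x, hx, rfl, -⟩ := Fr.exists_of_target hz
    refine (hc.sm ν i.e x (i.at hx) (i.UZ x hx)).congr_of_eventuallyEq ?_
    filter_upwards [h1] with z' hz'
    show hc.χ ν (i.c.symm z').1 = hc.χ ν (i.e.symm z')
    rw [hz'.2]
  supp ν := by
    obtain ⟨C, hC, hCZ, h0⟩ := hc.supp ν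
    refine ⟨Subtype.val ⁻¹' C, ?_, fun x hx => h0 _ hx⟩
    refine (Topology.IsInducing.subtypeVal (t := {x : X | x ∉ Z})).isCompact_iff.2 ?_
    have h1 : (Subtype.val '' (Subtype.val ⁻¹' C : Set {x : X | x ∉ Z})) = C := by
      rw [Subtype.image_preimage_coe]
      refine inter_eq_right.2 fun x hx hxZ => ?_
      have : x ∈ C ∩ Z := ⟨hx, hxZ⟩
      rw [hCZ] at this
      exact this
    exact h1.symm ▸ hC
  nonneg ν x := hc.nonneg ν _
  mono ν x := hc.mono ν _
  le_one ν x := hc.le_one ν _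
  lim x := by
    filter_upwards [hc.lim x.1 x.2] with ν hν
    exact continuous_subtype_val.continuousAt.eventually hν
  grad ν i z hz := by
    change Fr p v Z at i
    change z ∈ i.c.target at hz
    have h1 := Fr.c_symm_ev hz
    obtain ⟨x, hx, rfl, -⟩ := Fr.exists_of_target hz
    have h2 : (fun z => ((hc.χ ν (i.c.symm z).1 : ℝ) : ℂ)) =ᶠ[𝓝 (i.e x)]
        fun z => ((hc.χ ν (i.e.symm z) : ℝ) : ℂ) := by
      filter_upwards [h1] with z' hz'
      rw [hz'.2]
    have h3 := hc.grad ν i.e x (i.at hx) (i.UZ x hx)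
    have h4 : ∀ j, dz j (fun z => ((hc.χ ν (i.c.symm z).1 : ℝ) : ℂ)) (i.e x) =
        dz j (fun z => ((hc.χ ν (i.e.symm z) : ℝ) : ℂ)) (i.e x) := fun j => dz_congr h2
    show (((hc.ε ν : ℝ) : ℂ) • h i.e (i.e x) - Matrix.of fun j k =>
      dz j (fun z => ((hc.χ ν (i.c.symm z).1 : ℝ) : ℂ)) (i.e x) *
      conj (dz k (fun z => ((hc.χ ν (i.c.symm z).1 : ℝ) : ℂ)) (i.e x))).PosSemidef
    simp only [h4]
    exact h3
  tend := hc.tend

end

end Vale.Agent.P284.H47.K
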