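import Vale.Agent.P284.H47.K.Vol
import Vale.Agent.P284.H553.K8.T

/-!
# P284 (helper47), K8, module (B'): `BVolStmt`
-/

open scoped Manifold ContDiff Topology ComplexConjugate ComplexOrder ENNReal InnerProductSpace
open Filter Set Metric MeasureTheory

noncomputable section

namespace Vale.Agent.P284.H47.K

open Vale.Agent.P272.K Vale.Agent.P284.H573 Vale.Agent.P284.H395 Vale.Agent.P284.H998
  Vale.Agent.P284.H998.U Vale.Agent.P284.H553.LB Vale.Agent.P284.H608.K Vale.Agent.P284.H837
  Vale.Agent.P284.H894 Vale.Agent.P284.H894.G Vale.Agent.P284.H553.K8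

/-- the Borel structure of the complement -/
lemma borel_compl {X : Type} [TopologicalSpace X] [MeasurableSpace X] [BorelSpace X] (Z : Set X) :
    BorelSpace {x : X // x ∉ Z} := (inferInstance : BorelSpace (Zᶜ : Set X))

/-- a chart of the complement of `Z`, in the form used here -/
theorem vol_rch {n R m : ℕ} {X E : Type} [TopologicalSpace X] [ChartedSpace (Cm n) X]
    [TopologicalSpace E] {p : E → X} {H : Type} [NormedAddCommGroup H] [InnerProductSpace ℂ H]
    [CompleteSpace H] {v : E → Chart n X → (Fin R → Cm n) → H} {Z : Set X}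
    [Nonempty {x : X // x ∉ Z}] [MeasurableSpace {x : X // x ∉ Z}] [BorelSpace {x : X // x ∉ Z}]
    [SecondCountableTopology X] (hV : VD m p v Z)
    {h : Chart n X → Cm n → Matrix (Fin n) (Fin n) ℂ} {μ : Measure {x : X // x ∉ Z}}
    (hμ : VolV p v Z h μ) {e : Chart n X} (he : e ∈ atlas (Cm n) X) {U : Set X} (hU : IsOpen U)
    (hUe : U ⊆ e.source) (hUZ : ∀ x ∈ U, x ∉ Z)
    {f : {x : X // x ∉ Z} → ℝ≥0∞} (hf : Measurable f) :
    ∫⁻ x in {x | x.1 ∈ U}, f x ∂μ = ∫⁻ z in (rch e U hU hUe hUZ).target,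
      f ((rch e U hU hUe hUZ).symm z) * ENNReal.ofReal (h e z).det.re := by
  have hUm : MeasurableSet {x : {x : X // x ∉ Z} | x.1 ∈ U} :=
    (hU.preimage continuous_subtype_val).measurableSet
  rw [← lintegral_indicator hUm, vol_chart hV hμ he (hf.indicator hUm)
    fun x hx => indicator_of_notMem (s := {x : {x : X // x ∉ Z} | x.1 ∈ U})
      (fun h => hx (hUe h)) f]
  have hA : MeasurableSet (e.target ∩ e.symm ⁻¹' Zᶜ) :=
    (e.symm.isOpen_inter_preimage hV.closed.isOpen_compl).measurableSet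
  have h1 : ∀ z ∈ e.target ∩ e.symm ⁻¹' Zᶜ,
      ({x : {x : X // x ∉ Z} | x.1 ∈ U}.indicator f) (lift Z (e.symm z)) *
        ENNReal.ofReal ((h e z).det.re) =
      ((rch e U hU hUe hUZ).target).indicator (fun z => f ((rch e U hU hUe hUZ).symm z) *
        ENNReal.ofReal (h e z).det.re) z := by
    intro z hz
    have h2 : (lift Z (e.symm z)).1 = e.symm z := lift_val hz.2
    by_cases hzU : e.symm z ∈ U
    · have h3 : z ∈ (rch e U hU hUe hUZ).target := ⟨hz.1, hzU⟩
      rw [indicator_of_mem h3, indicator_of_mem (by show (lift Z (e.symm z)).1 ∈ U; rwa [h2])]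
      congr 2
    · rw [indicator_of_notMem (by show (lift Z (e.symm z)).1 ∉ U; rwa [h2]),
        indicator_of_notMem (fun h => hzU h.2), zero_mul]
  rw [setLIntegral_congr_fun hA h1,
    setLIntegral_indicator (rch e U hU hUe hUZ).open_target.measurableSet]
  congr 2
  exact inter_eq_left.2 fun z hz => ⟨hz.1, hUZ _ hz.2⟩

/-- **(B')** -/
theorem bVolStmt : BVolStmt := by
  intro n R m X _ _ _ _ _ _ _ w h ρ E _ p H _ _ _ v hH _ μ hμ e he U hU hUe hUZ f hf
  have : SecondCountableTopology X := ChartedSpace.secondCountable_of_sigmaCompact (Cm n) X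
  have := borel_compl (Zs p v)
  exact vol_rch hH.vd hμ he hU hUe hUZ hf

end Vale.Agent.P284.H47.K
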