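import Vale.Agent.P284.H608.K.App
import Vale.Agent.P284.H335.CStkE
import Vale.Agent.P284.H998.StkU

/-!
# P284 (helper47), K8k, part 1: framed charts of the bundle `O(N)` off the zero set of `v`

`Z ⊆ X` is closed, `v` does not vanish off `Z`. A framed chart is a chart `e` of `X`, an open set `U`
off `Z`, a local section `τ : U → E` of the covering, a frame `ξ` and a functional `ℓ` with
`ℓ (v (τ x) e ξ) ≠ 0` on `U`. Its generator is `ℓ^N`, of norm `(|ℓ (v (τ x) e ξ)| / ‖v (τ x) e ξ‖)^N`.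
-/

open scoped Manifold ContDiff Topology ComplexConjugate ComplexOrder ENNReal InnerProductSpace
open Filter Set Metric MeasureTheory

noncomputable section

namespace Vale.Agent.P284.H47.K

open Vale.Agent.P272.K Vale.Agent.P284.H573 Vale.Agent.P284.H395 Vale.Agent.P284.H894.G
  Vale.Agent.P284.H837 Vale.Agent.P284.H335 Vale.Agent.P284.H608.K

section rch
variable {n : ℕ} {X : Type} [TopologicalSpace X] {Z : Set X}

open Classical in
/-- the chart `e`, restricted to `U`, as a chart of the complement of `Z` -/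
def rch [hne : Nonempty {x : X // x ∉ Z}] (e : Chart n X) (U : Set X) (hU : IsOpen U)
    (hUe : U ⊆ e.source) (hUZ : ∀ x ∈ U, x ∉ Z) :
    OpenPartialHomeomorph {x : X // x ∉ Z} (Cm n) where
  toFun x := e x.1
  invFun z := if h : e.symm z ∉ Z then ⟨e.symm z, h⟩ else hne.some
  source := {x | x.1 ∈ U}
  target := e.target ∩ e.symm ⁻¹' U
  map_source' x hx := by
    have hx' : x.1 ∈ U := hx
    exact ⟨e.map_source (hUe hx'), by
      show e.symm (e x.1) ∈ U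
      rw [e.left_inv (hUe hx')]; exact hx'⟩
  map_target' z hz := by
    have h : e.symm z ∉ Z := hUZ _ hz.2
    show (if h : e.symm z ∉ Z then (⟨e.symm z, h⟩ : {x : X // x ∉ Z}) else hne.some).1 ∈ U
    rw [dif_pos h]
    exact hz.2
  left_inv' x hx := by
    have hx' : x.1 ∈ U := hx
    have h1 : e.symm (e x.1) = x.1 := e.left_inv (hUe hx')
    have h : e.symm (e x.1) ∉ Z := by rw [h1]; exact x.2
    show (if h : e.symm (e x.1) ∉ Z then (⟨e.symm (e x.1), h⟩ : {x : X // x ∉ Z}) else hne.some) = x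
    rw [dif_pos h]
    exact Subtype.ext h1
  right_inv' z hz := by
    have h : e.symm z ∉ Z := hUZ _ hz.2
    show e (if h : e.symm z ∉ Z then (⟨e.symm z, h⟩ : {x : X // x ∉ Z}) else hne.some).1 = z
    rw [dif_pos h]
    exact e.right_inv hz.1
  open_source := hU.preimage continuous_subtype_val
  open_target := e.symm.isOpen_inter_preimage hU
  continuousOn_toFun := by
    refine ContinuousOn.comp (g := e) (t := e.source) e.continuousOn
      continuous_subtype_val.continuousOn fun x hx => hUe hx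
  continuousOn_invFun := by
    refine (Topology.IsInducing.subtypeVal (t := {x : X | x ∉ Z})).continuousOn_iff.2 ?_
    refine (e.continuousOn_symm.mono inter_subset_left).congr fun z hz => ?_
    have h : e.symm z ∉ Z := hUZ _ hz.2
    show (if h : e.symm z ∉ Z then (⟨e.symm z, h⟩ : {x : X // x ∉ Z}) else hne.some).1 = e.symm z
    rw [dif_pos h]

variable [Nonempty {x : X // x ∉ Z}] {e : Chart n X} {U : Set X} {hU : IsOpen U}
  {hUe : U ⊆ e.source} {hUZ : ∀ x ∈ U, x ∉ Z}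

@[simp] lemma rch_apply (x : {x : X // x ∉ Z}) : rch e U hU hUe hUZ x = e x.1 := rfl

@[simp] lemma rch_source : (rch e U hU hUe hUZ).source = {x : {x : X // x ∉ Z} | x.1 ∈ U} := rfl

lemma mem_rch_source {x : {x : X // x ∉ Z}} :
    x ∈ (rch e U hU hUe hUZ).source ↔ x.1 ∈ U := Iff.rfl

@[simp] lemma rch_target : (rch e U hU hUe hUZ).target = e.target ∩ e.symm ⁻¹' U := rfl

lemma rch_symm {z : Cm n} (hz : e.symm z ∉ Z) : ((rch e U hU hUe hUZ).symm z).1 = e.symm z := by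
  exact congrArg Subtype.val (dif_pos hz)

lemma rch_symm' {z : Cm n} (hz : z ∈ (rch e U hU hUe hUZ).target) :
    ((rch e U hU hUe hUZ).symm z).1 = e.symm z := rch_symm (hUZ _ hz.2)

/-- near a point of the target, the inverse of the restricted chart is the inverse of `e` -/
lemma rch_symm_ev {z : Cm n} (hz : z ∈ (rch e U hU hUe hUZ).target) :
    ∀ᶠ z' in 𝓝 z, z' ∈ (rch e U hU hUe hUZ).target ∧
      ((rch e U hU hUe hUZ).symm z').1 = e.symm z' := by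
  filter_upwards [(rch e U hU hUe hUZ).open_target.mem_nhds hz] with z' hz'
  exact ⟨hz', rch_symm' hz'⟩

end rch

section
variable {n R : ℕ} {X E : Type} [TopologicalSpace X] [ChartedSpace (Cm n) X] [TopologicalSpace E]
  {H : Type} [NormedAddCommGroup H] [InnerProductSpace ℂ H]

/-- the properties of `v` which are used: `v` is a natural form, without zeros off `Z`; the values of
`v` at a point are proportional, with the same constants over a fibre of the covering. -/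
structure VD (m : ℕ) (p : E → X) (v : E → Chart n X → (Fin R → Cm n) → H) (Z : Set X) : Prop where
  cov : IsCoveringMap p
  surj : Function.Surjective p
  form : HForm n R m p H v
  coef : ∀ y e e', At e (p y) → At e' (p y) → ∀ ξ, v y e ξ ≠ 0 → ∀ η, ∃ a : ℂ,
    ∀ y₁, p y₁ = p y → v y₁ e' η = a • v y₁ e ξ
  closed : IsClosed Z
  nz : ∀ y, p y ∉ Z → NZ p v y

/-- framed charts -/
structure Fr (p : E → X) (v : E → Chart n X → (Fin R → Cm n) → H) (Z : Set X) where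
  e : Chart n X
  he : e ∈ atlas (Cm n) X
  U : Set X
  Uo : IsOpen U
  Ue : U ⊆ e.source
  UZ : ∀ x ∈ U, x ∉ Z
  τ : X → E
  τc : ContinuousOn τ U
  pτ : ∀ x ∈ U, p (τ x) = x
  ξ : Fin R → Cm n
  ℓ : H →L[ℂ] ℂ
  ne : ∀ x ∈ U, ℓ (v (τ x) e ξ) ≠ 0

variable {m : ℕ} {p : E → X}
  {v : E → Chart n X → (Fin R → Cm n) → H} {Z : Set X}

lemma Fr.at (i : Fr p v Z) {x : X} (hx : x ∈ i.U) : At i.e x := ⟨i.he, i.Ue hx⟩

lemma Fr.at' (i : Fr p v Z) {x : X} (hx : x ∈ i.U) : At i.e (p (i.τ x)) := by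
  rw [i.pτ x hx]; exact i.at hx

lemma Fr.v_ne (i : Fr p v Z) {x : X} (hx : x ∈ i.U) : v (i.τ x) i.e i.ξ ≠ 0 := fun h =>
  i.ne x hx (by rw [h, map_zero])

lemma VD.coef_ne (hV : VD m p v Z) {y : E} {e e' : Chart n X} (he : At e (p y))
    (he' : At e' (p y)) {ξ : Fin R → Cm n} (hξ : v y e ξ ≠ 0) {η : Fin R → Cm n}
    (hη : v y e' η ≠ 0) :
    ∃ a : ℂ, a ≠ 0 ∧ ∀ y₁, p y₁ = p y → v y₁ e' η = a • v y₁ e ξ := by
  obtain ⟨a, ha⟩ := hV.coef y e e' he he' ξ hξ η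
  refine ⟨a, fun h => hη ?_, ha⟩
  rw [ha y rfl, h, zero_smul]

lemma VD.ne_of_eq (hV : VD m p v Z) {y y₁ : E} {e : Chart n X} (he : At e (p y))
    (hy : p y₁ = p y) {ξ : Fin R → Cm n} (hξ : v y e ξ ≠ 0) : v y₁ e ξ ≠ 0 := by
  rw [← norm_pos_iff, ← hV.form.inv y y₁ e he hy.symm ξ]
  exact norm_pos_iff.2 hξ

/-- the local representative along a local section -/
lemma VD.rep (hV : VD m p v Z) (i : Fr p v Z) {x : X} (hx : x ∈ i.U) {e : Chart n X}
    (he : At e x) : ∃ F : Cm n × (Fin R → Cm n) → H, (∀ ξ, AnalyticAt ℂ F (e x, ξ)) ∧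
    (∀ᶠ y' in 𝓝 (i.τ x), ∀ ξ, v y' e ξ = F (e (p y'), ξ)) ∧
    ∀ᶠ x' in 𝓝 x, ∀ ξ, v (i.τ x') e ξ = F (e x', ξ) := by
  have hpx : p (i.τ x) = x := i.pτ x hx
  obtain ⟨F, hF, hev⟩ := hV.form.hol (i.τ x) e (by rw [hpx]; exact he)
  rw [hpx] at hF
  refine ⟨F, hF, hev, ?_⟩
  have hc : ContinuousAt i.τ x := i.τc.continuousAt (i.Uo.mem_nhds hx)
  filter_upwards [hc.eventually hev, i.Uo.mem_nhds hx] with x' h1 h2 ξ
  rw [h1 ξ, i.pτ x' h2]

/-- the value of the framed chart -/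
def Fr.val (i : Fr p v Z) (e : Chart n X) (ξ : Fin R → Cm n) (x : X) : ℂ := i.ℓ (v (i.τ x) e ξ)

lemma VD.an_vec [CompleteSpace H] (hV : VD m p v Z) (i : Fr p v Z) {x : X} (hx : x ∈ i.U)
    {e : Chart n X} (he : At e x) (ξ : Fin R → Cm n) :
    AnalyticAt ℂ (fun z => v (i.τ (e.symm z)) e ξ) (e x) := by
  obtain ⟨F, hF, -, hev⟩ := hV.rep i hx he
  refine (an_slice (hF ξ)).congr ?_
  filter_upwards [Vale.Agent.P284.H998.U.symm_ev he hev, he.nhds_target] with z h1 h2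
  rw [h1 ξ, e.right_inv h2]

lemma VD.an_val [CompleteSpace H] (hV : VD m p v Z) (i : Fr p v Z) {x : X} (hx : x ∈ i.U)
    {e : Chart n X} (he : At e x) (ξ : Fin R → Cm n) :
    AnalyticAt ℂ (fun z => i.ℓ (v (i.τ (e.symm z)) e ξ)) (e x) :=
  (i.ℓ.analyticAt _).comp (hV.an_vec i hx he ξ)

/-- existence of framed charts -/
theorem VD.exists_fr [CompleteSpace H] (hV : VD m p v Z) {y : E} (hy : p y ∉ Z) {e : Chart n X}
    (he : At e (p y))
    {ξ : Fin R → Cm n} {ℓ : H →L[ℂ] ℂ} (h : ℓ (v y e ξ) ≠ 0) :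
    ∃ i : Fr p v Z, i.e = e ∧ i.ξ = ξ ∧ i.ℓ = ℓ ∧ p y ∈ i.U ∧ i.τ (p y) = y ∧
      ∀ᶠ y' in 𝓝 y, i.τ (p y') = y' := by
  obtain ⟨ψ, hψ, hpψ⟩ := hV.cov.isLocalHomeomorph y
  have h1 : ψ.symm (p y) = y := by rw [hpψ]; exact ψ.left_inv hψ
  have hyt : p y ∈ ψ.target := by rw [hpψ]; exact ψ.map_source hψ
  have hc : ContinuousAt ψ.symm (p y) := ψ.continuousAt_symm hyt
  obtain ⟨F, hF, hev⟩ := hV.form.hol y e he
  have h2 : ∀ᶠ y' in 𝓝 y, ℓ (v y' e ξ) ≠ 0 := by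
    have h3 : ContinuousAt (fun y' => ℓ (F (e (p y'), ξ))) y := by
      have h4 : ContinuousAt (fun z => ℓ (F (z, ξ))) (e (p y)) :=
        ℓ.continuous.continuousAt.comp (an_slice (hF ξ)).continuousAt
      exact h4.comp (f := fun y' => e (p y')) (tendsto_ep hV.cov he)
    have h5 : ℓ (F (e (p y), ξ)) ≠ 0 := by rw [← hev.self_of_nhds ξ]; exact h
    filter_upwards [hev, h3.eventually_ne h5] with y' a b
    rw [a ξ]; exact b
  have h3 : ∀ᶠ x in 𝓝 (p y), x ∈ e.source ∧ x ∉ Z ∧ x ∈ ψ.target ∧ ℓ (v (ψ.symm x) e ξ) ≠ 0 := by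
    have h4 : Tendsto ψ.symm (𝓝 (p y)) (𝓝 y) := by
      have := hc.tendsto
      rwa [h1] at this
    filter_upwards [e.open_source.mem_nhds he.2, hV.closed.isOpen_compl.mem_nhds hy,
      ψ.open_target.mem_nhds hyt, h4.eventually h2] with x a1 a2 a3 a4
    exact ⟨a1, a2, a3, a4⟩
  obtain ⟨U, hU, hUo, hyU⟩ := mem_nhds_iff.1 h3
  refine ⟨⟨e, he.1, U, hUo, fun x hx => (hU hx).1, fun x hx => (hU hx).2.1, ψ.symm,
    ψ.continuousOn_symm.mono fun x hx => (hU hx).2.2.1, fun x hx => ?_, ξ, ℓ,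
    fun x hx => (hU hx).2.2.2⟩, rfl, rfl, rfl, hyU, h1, ?_⟩
  · rw [hpψ]; exact ψ.right_inv (hU hx).2.2.1
  · filter_upwards [ψ.open_source.mem_nhds hψ] with y' hy'
    show ψ.symm (p y') = y'
    rw [hpψ]; exact ψ.left_inv hy'

/-- two proportional families of vectors with the same norms have the same constants -/
theorem coef_unique {V V₁ : (Fin R → Cm n) → H} (hd : Differentiable ℂ V)
    (hd₁ : Differentiable ℂ V₁) (hn : ∀ ξ, ‖V ξ‖ = ‖V₁ ξ‖) {ξ : Fin R → Cm n} (h0 : V ξ ≠ 0)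
    (hl : ∀ η, ∃ a : ℂ, V η = a • V ξ) (hl₁ : ∀ η, ∃ a : ℂ, V₁ η = a • V₁ ξ)
    {η : Fin R → Cm n} {a : ℂ} (ha : V η = a • V ξ) : V₁ η = a • V₁ ξ := by
  have h0' : V₁ ξ ≠ 0 := by rw [← norm_pos_iff, ← hn ξ]; exact norm_pos_iff.2 h0
  have hin : ∀ (W : (Fin R → Cm n) → H), W ξ ≠ 0 → (∀ η, ∃ a : ℂ, W η = a • W ξ) → ∀ η,
      W η = (⟪W ξ, W η⟫_ℂ / ⟪W ξ, W ξ⟫_ℂ) • W ξ := by
    intro W hW hWl η
    obtain ⟨b, hb⟩ := hWl η
    rw [hb, inner_smul_right, mul_div_assoc, div_self (inner_self_ne_zero.2 hW), mul_one]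
  set f : ℂ → ℂ := fun t => ⟪V ξ, V (ξ + t • (η - ξ))⟫_ℂ / ⟪V ξ, V ξ⟫_ℂ with hf
  set f₁ : ℂ → ℂ := fun t => ⟪V₁ ξ, V₁ (ξ + t • (η - ξ))⟫_ℂ / ⟪V₁ ξ, V₁ ξ⟫_ℂ with hf₁
  have hlin : Differentiable ℂ fun t : ℂ => ξ + t • (η - ξ) := by fun_prop
  have hfd : Differentiable ℂ f :=
    (((innerSL ℂ (V ξ)).differentiable.comp (hd.comp hlin))).div_const _
  have hfd₁ : Differentiable ℂ f₁ :=
    (((innerSL ℂ (V₁ ξ)).differentiable.comp (hd₁.comp hlin))).div_const _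
  have hf0 : f 0 = 1 := by
    simp only [hf, zero_smul, add_zero]
    exact div_self (inner_self_ne_zero.2 h0)
  have hf₁0 : f₁ 0 = 1 := by
    simp only [hf₁, zero_smul, add_zero]
    exact div_self (inner_self_ne_zero.2 h0')
  have hnorm : ∀ t, ‖f t‖ = ‖f₁ t‖ := by
    intro t
    have h1 := hin V h0 hl (ξ + t • (η - ξ))
    have h2 := hin V₁ h0' hl₁ (ξ + t • (η - ξ))
    have h3 := hn (ξ + t • (η - ξ))
    rw [h1, h2, norm_smul, norm_smul, hn ξ] at h3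
    exact mul_right_cancel₀ (norm_ne_zero_iff.2 h0') h3
  have hne : ∀ᶠ t in 𝓝 (0 : ℂ), f₁ t ≠ 0 :=
    hfd₁.continuous.continuousAt.eventually_ne (by rw [hf₁0]; exact one_ne_zero)
  have hq : ∀ᶠ t in 𝓝 (0 : ℂ), (fun t => f t / f₁ t) t = (fun t => f t / f₁ t) 0 := by
    refine Complex.eventually_eq_of_isLocalMax_norm ?_ ?_
    · filter_upwards [hne] with t ht
      exact (hfd t).div (hfd₁ t) ht
    · filter_upwards [hne] with t ht
      show ‖f t / f₁ t‖ ≤ ‖f 0 / f₁ 0‖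
      rw [hf0, hf₁0, norm_div, hnorm t, div_self (norm_ne_zero_iff.2 ht)]
      simp
  have heq : ∀ᶠ t in 𝓝 (0 : ℂ), f t = f₁ t := by
    filter_upwards [hq, hne] with t h1 h2
    simp only [hf0, hf₁0, div_one] at h1
    field_simp at h1
    exact h1
  have hall : f = f₁ := AnalyticOnNhd.eq_of_eventuallyEq
    (fun t _ => hfd.analyticAt t) (fun t _ => hfd₁.analyticAt t) heq
  have h1 := congrFun hall 1
  have e1 : ξ + (1 : ℂ) • (η - ξ) = η := by rw [one_smul, add_sub_cancel]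
  simp only [hf, hf₁, e1] at h1
  have h2 := hin V₁ h0' hl₁ η
  rw [← h1] at h2
  rw [h2, ha, inner_smul_right, mul_div_assoc, div_self (inner_self_ne_zero.2 h0), mul_one]

/-- the data `VD`, if the values of `v` at each point lie on a line -/
theorem vD_of [CompleteSpace H] (hp : IsCoveringMap p) (hs : Function.Surjective p)
    (hv : HForm n R m p H v) (hm : 1 ≤ m) (hd : ∀ y e, At e (p y) → DecId n R m (v y e))
    (hZ : IsClosed Z) (hnz : ∀ y, p y ∉ Z → NZ p v y) : VD m p v Z := by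
  refine ⟨hp, hs, hv, ?_, hZ, hnz⟩
  intro y e e' he he' ξ hξ η
  have hl : ∀ y₁, p y₁ = p y → v y₁ e ξ ≠ 0 → ∀ η, ∃ a : ℂ, v y₁ e η = a • v y₁ e ξ :=
    fun y₁ hy₁ h1 η => line_of_dec hm (hd y₁ e (by rw [hy₁]; exact he)) h1 η
  set η' : Fin R → Cm n := fun i => fderiv ℂ (fun z => e (e'.symm z)) (e' (p y)) (η i) with hη'
  obtain ⟨a, ha⟩ := hl y rfl hξ η'
  refine ⟨a, fun y₁ hy₁ => ?_⟩
  have he₁ : At e (p y₁) := by rw [hy₁]; exact he
  have he₁' : At e' (p y₁) := by rw [hy₁]; exact he'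
  have h1 : v y₁ e' η = v y₁ e η' := by
    rw [hv.change y₁ e' e he₁' he₁ η, hη', hy₁]
  rw [h1]
  have hξ₁ : v y₁ e ξ ≠ 0 := by
    rw [← norm_pos_iff, ← hv.inv y y₁ e he hy₁.symm ξ]
    exact norm_pos_iff.2 hξ
  exact coef_unique (fun ξ => v_diff hv he ξ) (fun ξ => v_diff hv he₁ ξ)
    (fun ξ => hv.inv y y₁ e he hy₁.symm ξ) hξ (hl y rfl hξ) (hl y₁ hy₁ hξ₁) ha

end

end Vale.Agent.P284.H47.K
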