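import Mathlib

/-!
K6 of upgrade K (P284): the abstract Hilbert space lemma.

Test elements `D0, D1, D2, D3`, Hilbert spaces `H1, H2`. `i1, i2` are the embeddings of the
test elements, `d0 : D0 -> H1`, `d1 : D1 -> H2` are (embedding) o (derivative),
`S2 : D2 -> H1`, `S3 : D3 -> H2` are (embedding) o (formal adjoint). `q1 tau` stands for
the square of the norm of `S tau` (tau in D1), `q2 x` for `norm (d x) ^ 2 + norm (S x) ^ 2`
(x in D2).
-/

open Filter Topology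
open scoped InnerProductSpace

namespace Vale.Agent.P284.H47.K

variable {𝕜 : Type*} [RCLike 𝕜]
variable {H1 H2 : Type*} [NormedAddCommGroup H1] [InnerProductSpace 𝕜 H1] [CompleteSpace H1]
  [NormedAddCommGroup H2] [InnerProductSpace 𝕜 H2] [CompleteSpace H2]

/-- Orthogonal splitting with respect to a set of test vectors: every `u` is the sum of a vector
orthogonal to all `S z` and a vector orthogonal to everything that is orthogonal to all `S z`. -/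
theorem split {D2 : Type*} (S2 : D2 → H1) (u : H1) :
    ∃ u0 u1 : H1, u = u0 + u1 ∧ (∀ z, ⟪u0, S2 z⟫_𝕜 = 0) ∧
      ∀ w : H1, (∀ z, ⟪w, S2 z⟫_𝕜 = 0) → ⟪u1, w⟫_𝕜 = 0 := by
  classical
  let K : Submodule 𝕜 H1 := (Submodule.span 𝕜 (Set.range S2))ᗮ
  have hK : ∀ w : H1, (∀ z, ⟪w, S2 z⟫_𝕜 = 0) → w ∈ K := by
    intro w hw
    rw [Submodule.mem_orthogonal']
    intro v hv
    refine Submodule.span_induction (p := fun v _ => ⟪w, v⟫_𝕜 = 0) ?_ ?_ ?_ ?_ hv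
    · rintro _ ⟨z, rfl⟩
      exact hw z
    · simp
    · intro a b _ _ ha hb
      rw [inner_add_right, ha, hb, add_zero]
    · intro c a _ ha
      rw [inner_smul_right, ha, mul_zero]
  refine ⟨K.starProjection u, u - K.starProjection u, by abel, ?_, ?_⟩
  · intro z
    have h : (K.starProjection u) ∈ K := by
      exact Submodule.starProjection_apply_mem K u
    exact (Submodule.mem_orthogonal' _ _).1 h _ (Submodule.subset_span ⟨z, rfl⟩)
  · intro w hw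
    have := Submodule.starProjection_inner_eq_zero (K := K) u w (hK w hw)
    exact this

/-- The abstract lemma. `q1 tau` = norm of `S tau` squared, `q2 x` = `norm (d x)^2 + norm (S x)^2`. -/
theorem hilb {D0 D1 D2 D3 : Type*} [AddCommGroup D1] [Module 𝕜 D1]
    (i1 : D1 → H1) (i2 : D2 → H2) (d0 : D0 → H1) (d1 : D1 →ₗ[𝕜] H2)
    (S2 : D2 → H1) (S3 : D3 → H2) (q1 : D1 → ℝ) (q2 : D2 → ℝ)
    (adj : ∀ t z, ⟪i1 t, S2 z⟫_𝕜 = ⟪d1 t, i2 z⟫_𝕜)
    (o1 : ∀ z z', ⟪d0 z, S2 z'⟫_𝕜 = 0) (o2 : ∀ t z, ⟪d1 t, S3 z⟫_𝕜 = 0)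
    (q1n : ∀ t, 0 ≤ q1 t) 
    (dens1 : ∀ (u : H1) (v : H2), (∀ z, ⟪u, S2 z⟫_𝕜 = ⟪v, i2 z⟫_𝕜) → (∀ z, ⟪u, d0 z⟫_𝕜 = 0) →
      ∀ ε : ℝ, 0 < ε → ∃ t, ‖d1 t - v‖ < ε ∧ q1 t < ε)
    (dens2 : ∀ u : H2, (∀ z, ⟪u, S3 z⟫_𝕜 = 0) → (∀ t, ⟪u, d1 t⟫_𝕜 = 0) →
      ∀ ε : ℝ, 0 < ε → ∃ x, ‖i2 x - u‖ < ε ∧ q2 x < ε)
    (C₀ : ℝ) (s₀ : H2) (hs : ∀ z, ⟪s₀, S3 z⟫_𝕜 = 0)
    (hb : ∀ t, ‖⟪d1 t, s₀⟫_𝕜‖ ^ 2 ≤ C₀ * (‖d1 t‖ ^ 2 + q1 t)) (hC : 0 ≤ C₀) :
    ∃ s : H2, ‖s - s₀‖ ^ 2 ≤ C₀ ∧ (∀ z, ⟪s, S3 z⟫_𝕜 = 0) ∧ (∀ t, ⟪s, d1 t⟫_𝕜 = 0) ∧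
      ∀ ε : ℝ, 0 < ε → ∃ x, ‖i2 x - s‖ < ε ∧ q2 x < ε := by
  classical
  have A : ∀ t, ∀ ε : ℝ, 0 < ε → ∃ t', ‖d1 t' - d1 t‖ < ε ∧ q1 t' < ε := by
    intro t ε hε
    obtain ⟨u0, u1, hu, h0, h1⟩ := split (𝕜 := 𝕜) S2 (i1 t)
    refine dens1 u1 (d1 t) ?_ ?_ ε hε
    · intro z
      have : ⟪i1 t, S2 z⟫_𝕜 = ⟪u0, S2 z⟫_𝕜 + ⟪u1, S2 z⟫_𝕜 := by rw [hu, inner_add_left]
      rw [h0 z, zero_add] at this
      rw [← this, adj]
    · intro z
      exact h1 _ (fun z' => o1 z z')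
  let R : Submodule 𝕜 H2 := (LinearMap.range d1).topologicalClosure
  have : CompleteSpace R := (Submodule.isClosed_topologicalClosure _).completeSpace_coe
  set r : H2 := R.starProjection s₀ with hr
  have hrR : r ∈ R := Submodule.starProjection_apply_mem R s₀
  have hsr : ∀ w ∈ R, ⟪s₀ - r, w⟫_𝕜 = 0 := fun w hw =>
    Submodule.starProjection_inner_eq_zero (K := R) s₀ w hw
  have B : ∀ ε : ℝ, 0 < ε → ∃ t, ‖d1 t - r‖ < ε ∧ q1 t < ε := by
    intro ε hε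
    have h1 : r ∈ closure (LinearMap.range d1 : Set H2) := hrR
    obtain ⟨y, ⟨t, rfl⟩, hy⟩ := Metric.mem_closure_iff.1 h1 (ε / 2) (by positivity)
    obtain ⟨t', h2, h3⟩ := A t (ε / 2) (by positivity)
    refine ⟨t', ?_, by linarith⟩
    rw [dist_eq_norm, norm_sub_rev] at hy
    calc ‖d1 t' - r‖ = ‖(d1 t' - d1 t) + (d1 t - r)‖ := by congr 1; abel
      _ ≤ ‖d1 t' - d1 t‖ + ‖d1 t - r‖ := norm_add_le _ _
      _ < ε := by linarith
  have hpos : ∀ n : ℕ, (0 : ℝ) < 1 / ((n : ℝ) + 1) := fun n => by positivity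
  choose t ht1 ht2 using fun n : ℕ => B (1 / ((n : ℝ) + 1)) (hpos n)
  have hlim : Tendsto (fun n : ℕ => 1 / ((n : ℝ) + 1)) atTop (𝓝 0) :=
    tendsto_one_div_add_atTop_nhds_zero_nat
  have l1 : Tendsto (fun n => d1 (t n)) atTop (𝓝 r) := by
    rw [tendsto_iff_norm_sub_tendsto_zero]
    exact squeeze_zero (fun _ => norm_nonneg _) (fun n => (ht1 n).le) hlim
  have l2 : Tendsto (fun n => q1 (t n)) atTop (𝓝 0) :=
    squeeze_zero (fun n => q1n _) (fun n => (ht2 n).le) hlim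
  have l3 : Tendsto (fun n => ‖⟪d1 (t n), s₀⟫_𝕜‖ ^ 2) atTop (𝓝 (‖⟪r, s₀⟫_𝕜‖ ^ 2)) :=
    ((Filter.Tendsto.inner l1 tendsto_const_nhds).norm).pow 2
  have l4 : Tendsto (fun n => C₀ * (‖d1 (t n)‖ ^ 2 + q1 (t n))) atTop
      (𝓝 (C₀ * (‖r‖ ^ 2 + 0))) := ((l1.norm.pow 2).add l2).const_mul C₀
  have h5 : ‖⟪r, s₀⟫_𝕜‖ ^ 2 ≤ C₀ * (‖r‖ ^ 2 + 0) :=
    le_of_tendsto_of_tendsto' l3 l4 (fun n => hb (t n))
  have h6 : ⟪r, s₀⟫_𝕜 = ((‖r‖ ^ 2 : ℝ) : 𝕜) := by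
    have h := hsr r hrR
    have h' : ⟪r, s₀ - r⟫_𝕜 = 0 := by
      rw [← inner_conj_symm, h, map_zero]
    rw [inner_sub_right, sub_eq_zero] at h'
    rw [h', inner_self_eq_norm_sq_to_K]
    norm_cast
  have h7 : ‖r‖ ^ 2 ≤ C₀ := by
    rw [h6, RCLike.norm_ofReal, abs_of_nonneg (by positivity), add_zero] at h5
    by_contra hlt
    push Not at hlt
    have : 0 < ‖r‖ ^ 2 := lt_of_le_of_lt hC hlt
    nlinarith
  have hd1 : ∀ t, ⟪s₀ - r, d1 t⟫_𝕜 = 0 := fun t =>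
    hsr _ (Submodule.le_topologicalClosure _ ⟨t, rfl⟩)
  have hS3 : ∀ z, ⟪s₀ - r, S3 z⟫_𝕜 = 0 := by
    intro z
    have h8 : ⟪r, S3 z⟫_𝕜 = 0 := by
      have l5 : Tendsto (fun n => ⟪d1 (t n), S3 z⟫_𝕜) atTop (𝓝 ⟪r, S3 z⟫_𝕜) :=
        Filter.Tendsto.inner l1 tendsto_const_nhds
      have l6 : Tendsto (fun n => ⟪d1 (t n), S3 z⟫_𝕜) atTop (𝓝 0) := by
        simp only [o2]
        exact tendsto_const_nhds
      exact tendsto_nhds_unique l5 l6
    rw [inner_sub_left, hs z, h8, sub_zero]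
  refine ⟨s₀ - r, ?_, hS3, hd1, dens2 _ hS3 hd1⟩
  rw [sub_sub_cancel_left, norm_neg]
  exact h7

section Seq

open UniformSpace

variable {E0 E1 E2 E3 : Type*}
  [SeminormedAddCommGroup E0] [InnerProductSpace 𝕜 E0]
  [SeminormedAddCommGroup E1] [InnerProductSpace 𝕜 E1]
  [SeminormedAddCommGroup E2] [InnerProductSpace 𝕜 E2]
  [SeminormedAddCommGroup E3] [InnerProductSpace 𝕜 E3]

/-- every element of a completion is the limit of a sequence -/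
theorem exists_seq {E : Type*} [SeminormedAddCommGroup E] (u : Completion E) :
    ∃ a : ℕ → E, CauchySeq a ∧ Tendsto (fun j => (a j : Completion E)) atTop (𝓝 u) := by
  have hd : DenseRange ((↑) : E → Completion E) := Completion.denseRange_coe
  have : ∀ n : ℕ, ∃ a : E, dist u (a : Completion E) < 1 / ((n : ℝ) + 1) := fun n =>
    hd.exists_dist_lt u (by positivity)
  choose a ha using this
  have hl : Tendsto (fun j => (a j : Completion E)) atTop (𝓝 u) := by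
    rw [tendsto_iff_dist_tendsto_zero]
    refine squeeze_zero (fun _ => dist_nonneg) (fun n => ?_)
      (tendsto_one_div_add_atTop_nhds_zero_nat (𝕜 := ℝ))
    rw [dist_comm]
    exact (ha n).le
  refine ⟨a, ?_, hl⟩
  have hc := hl.cauchySeq
  rw [Metric.cauchySeq_iff] at hc ⊢
  intro ε hε
  obtain ⟨N, hN⟩ := hc ε hε
  refine ⟨N, fun m hm n hn => ?_⟩
  have := hN m hm n hn
  rwa [Completion.dist_eq] at this

/-- a Cauchy sequence has a limit in the completion -/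
theorem exists_lim {E : Type*} [SeminormedAddCommGroup E] (a : ℕ → E) (ha : CauchySeq a) :
    ∃ u : Completion E, Tendsto (fun j => (a j : Completion E)) atTop (𝓝 u) := by
  have h : CauchySeq (fun j => (a j : Completion E)) :=
    ha.map (Completion.uniformContinuous_coe E)
  exact cauchySeq_tendsto_of_complete h

/-- K6 with pre-Hilbert test spaces and Cauchy sequences only: no completion in the statement. -/
theorem hilb_seq (d0 : E0 →ₗ[𝕜] E1) (d1 : E1 →ₗ[𝕜] E2) (d2 : E2 →ₗ[𝕜] E3)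
    (S1 : E1 →ₗ[𝕜] E0) (S2 : E2 →ₗ[𝕜] E1) (S3 : E3 →ₗ[𝕜] E2)
    (a1 : ∀ t z, ⟪t, S2 z⟫_𝕜 = ⟪d1 t, z⟫_𝕜) (a2 : ∀ t z, ⟪t, S3 z⟫_𝕜 = ⟪d2 t, z⟫_𝕜)
    (c0 : ∀ z, d1 (d0 z) = 0) (c1 : ∀ z, d2 (d1 z) = 0)
    (dens1 : ∀ (u : ℕ → E1) (v : ℕ → E2), CauchySeq u → CauchySeq v →
      (∀ z, Tendsto (fun j => ⟪u j, S2 z⟫_𝕜 - ⟪v j, z⟫_𝕜) atTop (𝓝 0)) →
      (∀ z, Tendsto (fun j => ⟪u j, d0 z⟫_𝕜) atTop (𝓝 0)) →
      ∀ ε : ℝ, 0 < ε → ∃ t, (∀ᶠ j in atTop, ‖d1 t - v j‖ < ε) ∧ ‖S1 t‖ ^ 2 < ε)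
    (dens2 : ∀ u : ℕ → E2, CauchySeq u →
      (∀ z, Tendsto (fun j => ⟪u j, S3 z⟫_𝕜) atTop (𝓝 0)) →
      (∀ t, Tendsto (fun j => ⟪u j, d1 t⟫_𝕜) atTop (𝓝 0)) →
      ∀ ε : ℝ, 0 < ε → ∃ x, (∀ᶠ j in atTop, ‖x - u j‖ < ε) ∧ ‖d2 x‖ ^ 2 + ‖S2 x‖ ^ 2 < ε)
    (C₀ : ℝ) (hC : 0 ≤ C₀) (y : ℕ → E2) (hy : CauchySeq y)
    (hs : ∀ z, Tendsto (fun j => ⟪y j, S3 z⟫_𝕜) atTop (𝓝 0))
    (hb : ∀ t, ∀ ε : ℝ, 0 < ε → ∀ᶠ j in atTop,
      ‖⟪d1 t, y j⟫_𝕜‖ ^ 2 ≤ C₀ * (‖d1 t‖ ^ 2 + ‖S1 t‖ ^ 2) + ε) :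
    ∃ x : ℕ → E2, CauchySeq x ∧
      Tendsto (fun k => ‖d2 (x k)‖ ^ 2 + ‖S2 (x k)‖ ^ 2) atTop (𝓝 0) ∧
      ∀ ε : ℝ, 0 < ε → ∀ᶠ k in atTop, ∀ᶠ j in atTop, ‖x k - y j‖ ^ 2 ≤ C₀ + ε := by
  classical
  obtain ⟨s₀, hs₀⟩ := exists_lim y hy
  have key := hilb (𝕜 := 𝕜) (H1 := Completion E1) (H2 := Completion E2) (D0 := E0) (D1 := E1)
    (D2 := E2) (D3 := E3) (fun t => (t : Completion E1)) (fun t => (t : Completion E2))
    (fun z => (d0 z : Completion E1)) (Completion.toComplₗᵢ.toLinearMap.comp d1)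
    (fun z => (S2 z : Completion E1)) (fun z => (S3 z : Completion E2))
    (fun t => ‖S1 t‖ ^ 2) (fun x => ‖d2 x‖ ^ 2 + ‖S2 x‖ ^ 2)
    (fun t z => by
      simp only [LinearMap.comp_apply, LinearIsometry.coe_toLinearMap, Completion.coe_toComplₗᵢ,
        Completion.inner_coe]
      exact a1 t z)
    (fun z z' => by rw [Completion.inner_coe, a1, c0, inner_zero_left])
    (fun t z => by
      simp only [LinearMap.comp_apply, LinearIsometry.coe_toLinearMap, Completion.coe_toComplₗᵢ,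
        Completion.inner_coe]
      rw [a2, c1, inner_zero_left])
    (fun t => by positivity) ?_ ?_ C₀ s₀ ?_ ?_ hC
  rotate_left
  · intro u v h1 h2 ε hε
    obtain ⟨a, ha, hau⟩ := exists_seq u
    obtain ⟨b, hb', hbv⟩ := exists_seq v
    obtain ⟨t, ht1, ht2⟩ := dens1 a b ha hb' (fun z => by
        have e1 : Tendsto (fun j => ⟪(a j : Completion E1), (S2 z : Completion E1)⟫_𝕜 -
            ⟪(b j : Completion E2), (z : Completion E2)⟫_𝕜) atTop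
            (𝓝 (⟪u, (S2 z : Completion E1)⟫_𝕜 - ⟪v, (z : Completion E2)⟫_𝕜)) :=
          (hau.inner tendsto_const_nhds).sub (hbv.inner tendsto_const_nhds)
        rw [h1 z, sub_self] at e1
        simpa only [Completion.inner_coe] using e1) (fun z => by
        have e1 : Tendsto (fun j => ⟪(a j : Completion E1), (d0 z : Completion E1)⟫_𝕜) atTop
            (𝓝 ⟪u, (d0 z : Completion E1)⟫_𝕜) := hau.inner tendsto_const_nhds
        rw [h2 z] at e1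
        simpa only [Completion.inner_coe] using e1) (ε / 2) (by positivity)
    refine ⟨t, ?_, by linarith⟩
    have e2 : Tendsto (fun j => ‖((d1 t : E2) : Completion E2) - (b j : Completion E2)‖) atTop
        (𝓝 ‖((d1 t : E2) : Completion E2) - v‖) := (tendsto_const_nhds.sub hbv).norm
    have e3 : ‖((d1 t : E2) : Completion E2) - v‖ ≤ ε / 2 := by
      refine le_of_tendsto e2 (ht1.mono fun j hj => ?_)
      rw [← Completion.coe_sub, Completion.norm_coe]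
      exact hj.le
    simp only [LinearMap.comp_apply, LinearIsometry.coe_toLinearMap, Completion.coe_toComplₗᵢ]
    linarith
  · intro u h1 h2 ε hε
    obtain ⟨a, ha, hau⟩ := exists_seq u
    obtain ⟨x, hx1, hx2⟩ := dens2 a ha (fun z => by
        have e1 : Tendsto (fun j => ⟪(a j : Completion E2), (S3 z : Completion E2)⟫_𝕜) atTop
            (𝓝 ⟪u, (S3 z : Completion E2)⟫_𝕜) := hau.inner tendsto_const_nhds
        rw [h1 z] at e1
        simpa only [Completion.inner_coe] using e1) (fun t => by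
        have e1 : Tendsto (fun j => ⟪(a j : Completion E2), ((d1 t : E2) : Completion E2)⟫_𝕜)
            atTop (𝓝 ⟪u, ((d1 t : E2) : Completion E2)⟫_𝕜) := hau.inner tendsto_const_nhds
        have h2' : ⟪u, ((d1 t : E2) : Completion E2)⟫_𝕜 = 0 := h2 t
        rw [h2'] at e1
        simpa only [Completion.inner_coe] using e1) (ε / 2) (by positivity)
    refine ⟨x, ?_, by linarith⟩
    have e2 : Tendsto (fun j => ‖(x : Completion E2) - (a j : Completion E2)‖) atTop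
        (𝓝 ‖(x : Completion E2) - u‖) := (tendsto_const_nhds.sub hau).norm
    have e3 : ‖(x : Completion E2) - u‖ ≤ ε / 2 := by
      refine le_of_tendsto e2 (hx1.mono fun j hj => ?_)
      rw [← Completion.coe_sub, Completion.norm_coe]
      exact hj.le
    linarith
  · intro z
    have e1 : Tendsto (fun j => ⟪(y j : Completion E2), (S3 z : Completion E2)⟫_𝕜) atTop
        (𝓝 ⟪s₀, (S3 z : Completion E2)⟫_𝕜) := hs₀.inner tendsto_const_nhds
    simp only [Completion.inner_coe] at e1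
    exact tendsto_nhds_unique e1 (hs z)
  · intro t
    have e1 : Tendsto (fun j => ‖⟪((d1 t : E2) : Completion E2), (y j : Completion E2)⟫_𝕜‖ ^ 2)
        atTop (𝓝 (‖⟪((d1 t : E2) : Completion E2), s₀⟫_𝕜‖ ^ 2)) :=
      ((tendsto_const_nhds.inner hs₀).norm).pow 2
    simp only [Completion.inner_coe] at e1
    simp only [LinearMap.comp_apply, LinearIsometry.coe_toLinearMap, Completion.coe_toComplₗᵢ,
      Completion.norm_coe]
    refine le_of_forall_pos_le_add fun ε hε => ?_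
    exact le_of_tendsto e1 (hb t ε hε)
  obtain ⟨s, h1, -, -, h4⟩ := key
  choose x hx1 hx2 using fun k : ℕ => h4 (1 / ((k : ℝ) + 1)) (by positivity)
  have l1 : Tendsto (fun k => (x k : Completion E2)) atTop (𝓝 s) := by
    rw [tendsto_iff_norm_sub_tendsto_zero]
    exact squeeze_zero (fun _ => norm_nonneg _) (fun k => (hx1 k).le)
      (tendsto_one_div_add_atTop_nhds_zero_nat (𝕜 := ℝ))
  refine ⟨x, ?_, squeeze_zero (fun k => by positivity) (fun k => (hx2 k).le)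
      (tendsto_one_div_add_atTop_nhds_zero_nat (𝕜 := ℝ)), ?_⟩
  · have hc := l1.cauchySeq
    rw [Metric.cauchySeq_iff] at hc ⊢
    intro ε hε
    obtain ⟨N, hN⟩ := hc ε hε
    refine ⟨N, fun m hm n hn => ?_⟩
    have := hN m hm n hn
    rwa [Completion.dist_eq] at this
  · intro ε hε
    have l2 : Tendsto (fun k => ‖(x k : Completion E2) - s₀‖ ^ 2) atTop (𝓝 (‖s - s₀‖ ^ 2)) :=
      ((l1.sub tendsto_const_nhds).norm).pow 2
    filter_upwards [l2.eventually (gt_mem_nhds (show ‖s - s₀‖ ^ 2 < C₀ + ε by linarith))]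
      with k hk
    have l3 : Tendsto (fun j => ‖(x k : Completion E2) - (y j : Completion E2)‖ ^ 2) atTop
        (𝓝 (‖(x k : Completion E2) - s₀‖ ^ 2)) := ((tendsto_const_nhds.sub hs₀).norm).pow 2
    filter_upwards [l3.eventually (gt_mem_nhds hk)] with j hj
    rw [← Completion.coe_sub, Completion.norm_coe] at hj
    exact hj.le

end Seq

end Vale.Agent.P284.H47.K
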