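import Vale.Agent.P284.H47.K.Fr
import Vale.Agent.P284.H608.K.Spec

/-!
# P284 (helper47), K8k, part 2: the Kähler manifold `X \ Z` with the bundle `O(N)`
-/

open scoped Manifold ContDiff Topology ComplexConjugate ComplexOrder ENNReal InnerProductSpace
open Filter Set Metric MeasureTheory

noncomputable section

namespace Vale.Agent.P284.H47.K

open Vale.Agent.P272.K Vale.Agent.P284.H573 Vale.Agent.P284.H395 Vale.Agent.P284.H894.G
  Vale.Agent.P284.H837 Vale.Agent.P284.H335 Vale.Agent.P284.H608.K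

section
variable {n R m : ℕ} {X E : Type} [TopologicalSpace X] [ChartedSpace (Cm n) X]
  [TopologicalSpace E]
  {p : E → X} {H : Type} [NormedAddCommGroup H] [InnerProductSpace ℂ H]
  {v : E → Chart n X → (Fin R → Cm n) → H} {Z : Set X}

/-- the vector of the framed chart -/
def Fr.W (i : Fr p v Z) (z : Cm n) : H := v (i.τ (i.e.symm z)) i.e i.ξ

/-- the weight `N log (‖W‖² / |ℓ W|²)` -/
def Fr.wt (N : ℕ) (i : Fr p v Z) (z : Cm n) : ℝ :=
  N * Real.log (‖i.W z‖ ^ 2 / ‖i.ℓ (i.W z)‖ ^ 2)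

/-- the transition functions: `s_i ℓ_i^N = s_j ℓ_j^N` -/
def Fr.tr (N : ℕ) (i j : Fr p v Z) (z : Cm n) : ℂ :=
  (j.ℓ (v (j.τ (i.e.symm z)) i.e i.ξ) / i.ℓ (v (i.τ (i.e.symm z)) i.e i.ξ)) ^ N

section tgt
variable [Nonempty {x : X // x ∉ Z}]

/-- the chart of `X \ Z` -/
def Fr.c (i : Fr p v Z) : OpenPartialHomeomorph {x : X // x ∉ Z} (Cm n) :=
  rch i.e i.U i.Uo i.Ue i.UZ

@[simp] lemma Fr.c_apply (i : Fr p v Z) (x : {x : X // x ∉ Z}) : i.c x = i.e x.1 := rfl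

lemma Fr.mem_source {i : Fr p v Z} {x : {x : X // x ∉ Z}} : x ∈ i.c.source ↔ x.1 ∈ i.U := Iff.rfl

lemma Fr.mem_target {i : Fr p v Z} {z : Cm n} :
    z ∈ i.c.target ↔ z ∈ i.e.target ∧ i.e.symm z ∈ i.U := Iff.rfl

lemma Fr.c_symm {i : Fr p v Z} {z : Cm n} (hz : z ∈ i.c.target) :
    (i.c.symm z).1 = i.e.symm z := rch_symm' hz

lemma Fr.c_symm_ev {i : Fr p v Z} {z : Cm n} (hz : z ∈ i.c.target) :
    ∀ᶠ z' in 𝓝 z, z' ∈ i.c.target ∧ (i.c.symm z').1 = i.e.symm z' := rch_symm_ev hz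

lemma Fr.target_of {i : Fr p v Z} {x : X} (hx : x ∈ i.U) : i.e x ∈ i.c.target :=
  Fr.mem_target.2 ⟨i.e.map_source (i.Ue hx), by rw [i.e.left_inv (i.Ue hx)]; exact hx⟩

/-- a point of the target comes from a point of `U` -/
lemma Fr.exists_of_target {i : Fr p v Z} {z : Cm n} (hz : z ∈ i.c.target) :
    ∃ x ∈ i.U, z = i.e x ∧ i.e.symm z = x :=
  ⟨i.e.symm z, hz.2, (i.e.right_inv hz.1).symm, rfl⟩

/-- the transition maps -/
lemma Fr.ev_c {i : Fr p v Z} (j : Fr p v Z) {z : Cm n} (hz : z ∈ i.c.target) :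
    (fun z => j.c (i.c.symm z)) =ᶠ[𝓝 z] fun z => j.e (i.e.symm z) := by
  filter_upwards [Fr.c_symm_ev hz] with z' hz'
  show j.e (i.c.symm z').1 = _
  rw [hz'.2]

lemma Fr.jacM_c {i j : Fr p v Z} {x : {x : X // x ∉ Z}} (hx : x.1 ∈ i.U) :
    jacM i.c j.c x = jacM i.e j.e x.1 := by
  have h1 := Fr.ev_c (i := i) j (Fr.target_of hx)
  exact jmat_congr (τ := fun z => j.c (i.c.symm z)) (σ := fun z => j.e (i.e.symm z)) h1

lemma Fr.fderiv_c {i : Fr p v Z} (j : Fr p v Z) {x : {x : X // x ∉ Z}} (hx : x.1 ∈ i.U) :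
    fderiv ℂ (fun z => j.c (i.c.symm z)) (i.c x) =
      fderiv ℂ (fun z => j.e (i.e.symm z)) (i.e x.1) :=
  (Fr.ev_c (i := i) j (Fr.target_of hx)).fderiv_eq

end tgt

lemma Fr.W_eq (i : Fr p v Z) {x : X} (hx : x ∈ i.U) : i.W (i.e x) = v (i.τ x) i.e i.ξ := by
  rw [Fr.W, i.e.left_inv (i.Ue hx)]

lemma Fr.W_ne (i : Fr p v Z) {x : X} (hx : x ∈ i.U) : i.W (i.e x) ≠ 0 := by
  rw [i.W_eq hx]; exact i.v_ne hx

lemma Fr.ℓW_ne (i : Fr p v Z) {x : X} (hx : x ∈ i.U) : i.ℓ (i.W (i.e x)) ≠ 0 := by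
  rw [i.W_eq hx]; exact i.ne x hx

lemma Fr.tr_eq (N : ℕ) (i j : Fr p v Z) {x : X} (hx : x ∈ i.U) : i.tr N j (i.e x) =
    (j.ℓ (v (j.τ x) i.e i.ξ) / i.ℓ (v (i.τ x) i.e i.ξ)) ^ N := by
  rw [Fr.tr, i.e.left_inv (i.Ue hx)]

variable [CompleteSpace H]

lemma VD.W_an (hV : VD m p v Z) (i : Fr p v Z) {x : X} (hx : x ∈ i.U) :
    AnalyticAt ℂ i.W (i.e x) := hV.an_vec i hx (i.at hx) i.ξ

lemma VD.ℓW_an (hV : VD m p v Z) (i : Fr p v Z) {x : X} (hx : x ∈ i.U) :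
    AnalyticAt ℂ (fun z => i.ℓ (i.W z)) (i.e x) := (i.ℓ.analyticAt _).comp (hV.W_an i hx)

/-- the weight is the sum of two logarithms -/
lemma VD.wt_ev (hV : VD m p v Z) (N : ℕ) (i : Fr p v Z) {x : X} (hx : x ∈ i.U) :
    i.wt N =ᶠ[𝓝 (i.e x)] fun z =>
      (N : ℝ) * (Real.log (‖i.W z‖ ^ 2) - Real.log (‖i.ℓ (i.W z)‖ ^ 2)) := by
  filter_upwards [(hV.W_an i hx).continuousAt.eventually_ne (i.W_ne hx),
    (hV.ℓW_an i hx).continuousAt.eventually_ne (i.ℓW_ne hx)] with z h1 h2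
  have h3 := norm_pos_iff.2 h1
  have h4 := norm_pos_iff.2 h2
  rw [Fr.wt, Real.log_div (by positivity) (by positivity)]

lemma VD.wt_smooth (hV : VD m p v Z) (N : ℕ) (i : Fr p v Z) {x : X} (hx : x ∈ i.U) :
    ContDiffAt ℝ ∞ (i.wt N) (i.e x) := by
  refine ContDiffAt.congr_of_eventuallyEq ?_ (hV.wt_ev N i hx)
  exact contDiffAt_const.mul ((H998.U.logg_smooth (hV.W_an i hx) (i.W_ne hx)).sub
    (H998.U.logg_smooth (hV.ℓW_an i hx) (i.ℓW_ne hx)))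

/-- the curvature of the weight -/
theorem VD.cHess_wt (hV : VD m p v Z) (N : ℕ) (i : Fr p v Z) {x : X} (hx : x ∈ i.U) :
    cHess (i.wt N) (i.e x) = (N : ℂ) • cHess (fun z => Real.log (‖i.W z‖ ^ 2)) (i.e x) := by
  have h1 := H998.U.logg_smooth (hV.W_an i hx) (i.W_ne hx)
  have h2 := H998.U.logg_smooth (hV.ℓW_an i hx) (i.ℓW_ne hx)
  rw [cHess_congr (hV.wt_ev N i hx),
    cHess_const_mul (f := fun z => Real.log (‖i.W z‖ ^ 2) - Real.log (‖i.ℓ (i.W z)‖ ^ 2)) (N : ℝ)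
      ((h1.sub h2).of_le (by norm_cast)),
    cHess_sub (f := fun z => Real.log (‖i.W z‖ ^ 2)) (g := fun z => Real.log (‖i.ℓ (i.W z)‖ ^ 2))
      (h1.of_le (by norm_cast)) (h2.of_le (by norm_cast)),
    cHess_log_norm_sq (F := fun z => i.ℓ (i.W z)) (hV.ℓW_an i hx).contDiffAt (i.ℓW_ne hx), sub_zero]
  norm_cast

/-- the curvature of the weight is `N ρ`, for the form `ρ` of `StkU` -/
theorem VD.cHess_wt_rho (hV : VD m p v Z) (N : ℕ) (i : Fr p v Z) {x : X} (hx : x ∈ i.U)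
    {ρ : Chart n X → Cm n → Matrix (Fin n) (Fin n) ℂ}
    (hρ : ∀ (y : E) (e : Chart n X), At e (p y) → ∀ V : Cm n × (Fin R → Cm n) → H,
        (∀ ξ, AnalyticAt ℂ V (e (p y), ξ)) → (∀ᶠ y' in 𝓝 y, ∀ ξ, v y' e ξ = V (e (p y'), ξ)) →
        ∀ ξ, v y e ξ ≠ 0 →
          ρ e (e (p y)) = cHess (fun z => Real.log (‖V (z, ξ)‖ ^ 2)) (e (p y))) :
    cHess (i.wt N) (i.e x) = (N : ℂ) • ρ i.e (i.e x) := by
  rw [hV.cHess_wt N i hx]
  obtain ⟨F, hF, hev, hev'⟩ := hV.rep i hx (i.at hx)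
  have hpx := i.pτ x hx
  have h1 := hρ (i.τ x) i.e (i.at' hx) F (by rw [hpx]; exact hF) hev i.ξ (i.v_ne hx)
  rw [hpx] at h1
  rw [h1]
  congr 1
  refine cHess_congr ?_
  filter_upwards [H998.U.symm_ev (i.at hx) hev', (i.at hx).nhds_target] with z h2 h3
  rw [Fr.W, h2 i.ξ, i.e.right_inv h3]

omit [CompleteSpace H] in
/-- the transition functions in any frame -/
lemma VD.tr_eq (hV : VD m p v Z) (N : ℕ) (i j : Fr p v Z) {x : X} (hi : x ∈ i.U) (hj : x ∈ j.U)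
    {e : Chart n X} (he : At e x) {ξ : Fin R → Cm n} (hξ : v (i.τ x) e ξ ≠ 0) :
    i.tr N j (i.e x) = (j.ℓ (v (j.τ x) e ξ) / i.ℓ (v (i.τ x) e ξ)) ^ N := by
  rw [i.tr_eq N j hi]
  obtain ⟨a, ha, h⟩ := hV.coef_ne (y := i.τ x) (i.at' hi) (e' := e) (by rw [i.pτ x hi]; exact he)
    (i.v_ne hi) hξ
  rw [h (i.τ x) rfl, h (j.τ x) (by rw [i.pτ x hi, j.pτ x hj]), map_smul, map_smul, smul_eq_mul,
    smul_eq_mul, mul_div_mul_left _ _ ha]

omit [CompleteSpace H] in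
lemma VD.ℓ_ne (hV : VD m p v Z) (i : Fr p v Z) {x : X} (hi : x ∈ i.U) {y : E} (hy : p y = x)
    {e : Chart n X} (he : At e x) {ξ : Fin R → Cm n} (hξ : v y e ξ ≠ 0) :
    i.ℓ (v (i.τ x) e ξ) ≠ 0 := by
  have hpi := i.pτ x hi
  have h1 : v (i.τ x) e ξ ≠ 0 := hV.ne_of_eq (by rw [hy]; exact he) (by rw [hpi, hy]) hξ
  obtain ⟨a, ha, h⟩ := hV.coef_ne (y := i.τ x) (i.at' hi) (e' := e) (by rw [hpi]; exact he)
    (i.v_ne hi) h1
  rw [h (i.τ x) rfl, map_smul]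
  exact smul_ne_zero ha (i.ne x hi)

/-- the transition functions are holomorphic -/
lemma VD.tr_an (hV : VD m p v Z) (N : ℕ) (i j : Fr p v Z) {x : X} (hi : x ∈ i.U)
    (hj : x ∈ j.U) : AnalyticAt ℂ (i.tr N j) (i.e x) := by
  have h1 : AnalyticAt ℂ (fun z => j.ℓ (v (j.τ (i.e.symm z)) i.e i.ξ)) (i.e x) :=
    hV.an_val j hj (i.at hi) i.ξ
  have h2 : AnalyticAt ℂ (fun z => i.ℓ (v (i.τ (i.e.symm z)) i.e i.ξ)) (i.e x) :=
    hV.an_val i hi (i.at hi) i.ξ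
  exact (h1.div h2 (i.ℓW_ne hi)).pow N

omit [CompleteSpace H] in
lemma VD.tr_coc (hV : VD m p v Z) (N : ℕ) (i j k : Fr p v Z) {x : X} (hi : x ∈ i.U)
    (hj : x ∈ j.U) (hk : x ∈ k.U) :
    i.tr N k (i.e x) = i.tr N j (i.e x) * j.tr N k (j.e x) := by
  have h1 : v (j.τ x) i.e i.ξ ≠ 0 :=
    hV.ne_of_eq (i.at' hi) (by rw [i.pτ x hi, j.pτ x hj]) (i.v_ne hi)
  have h2 := hV.tr_eq N j k hj hk (i.at hi) h1
  rw [i.tr_eq N k hi, i.tr_eq N j hi, h2, ← mul_pow]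
  congr 1
  have h3 : j.ℓ (v (j.τ x) i.e i.ξ) ≠ 0 := hV.ℓ_ne j hj (j.pτ x hj) (i.at hi) h1
  have h4 : i.ℓ (v (i.τ x) i.e i.ξ) ≠ 0 := i.ne x hi
  field_simp

omit [CompleteSpace H] in
lemma VD.tr_self (N : ℕ) (i : Fr p v Z) {x : X} (hi : x ∈ i.U) : i.tr N i (i.e x) = 1 := by
  rw [i.tr_eq N i hi, div_self (i.ne x hi), one_pow]

omit [CompleteSpace H] in
/-- `exp (-φ)` -/
lemma Fr.exp_wt (N : ℕ) (i : Fr p v Z) {x : X} (hi : x ∈ i.U) :
    Real.exp (-i.wt N (i.e x)) =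
      (‖i.ℓ (v (i.τ x) i.e i.ξ)‖ ^ 2 / ‖v (i.τ x) i.e i.ξ‖ ^ 2) ^ N := by
  have h1 := norm_pos_iff.2 (i.W_ne hi)
  have h2 := norm_pos_iff.2 (i.ℓW_ne hi)
  rw [Fr.wt, ← i.W_eq hi]
  rw [show -((N : ℝ) * Real.log (‖i.W (i.e x)‖ ^ 2 / ‖i.ℓ (i.W (i.e x))‖ ^ 2)) =
    N * Real.log (‖i.ℓ (i.W (i.e x))‖ ^ 2 / ‖i.W (i.e x)‖ ^ 2) by
      rw [← inv_div (‖i.ℓ (i.W (i.e x))‖ ^ 2), Real.log_inv]; ring]
  rw [← Real.log_pow, Real.exp_log (by positivity)]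

omit [CompleteSpace H] in
/-- `exp (-φ)` in any frame -/
lemma VD.exp_wt (hV : VD m p v Z) (N : ℕ) (i : Fr p v Z) {x : X} (hi : x ∈ i.U)
    {e : Chart n X} (he : At e x) {ξ : Fin R → Cm n} (hξ : v (i.τ x) e ξ ≠ 0) :
    Real.exp (-i.wt N (i.e x)) = (‖i.ℓ (v (i.τ x) e ξ)‖ ^ 2 / ‖v (i.τ x) e ξ‖ ^ 2) ^ N := by
  rw [i.exp_wt N hi]
  obtain ⟨a, ha, h⟩ := hV.coef_ne (y := i.τ x) (i.at' hi) (e' := e) (by rw [i.pτ x hi]; exact he)
    (i.v_ne hi) hξ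
  have ha' := norm_pos_iff.2 ha
  rw [h (i.τ x) rfl, map_smul, norm_smul, norm_smul, mul_pow, mul_pow,
    mul_div_mul_left _ _ (by positivity)]

omit [CompleteSpace H] in
lemma VD.wt_ch (hV : VD m p v Z) (N : ℕ) (i j : Fr p v Z) {x : X} (hi : x ∈ i.U)
    (hj : x ∈ j.U) : Real.exp (-i.wt N (i.e x)) * ‖i.tr N j (i.e x)‖ ^ 2 =
      Real.exp (-j.wt N (j.e x)) := by
  have hp : p (j.τ x) = p (i.τ x) := by rw [i.pτ x hi, j.pτ x hj]
  have h1 : v (j.τ x) i.e i.ξ ≠ 0 := hV.ne_of_eq (i.at' hi) hp (i.v_ne hi)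
  rw [hV.exp_wt N j hj (i.at hi) h1, i.exp_wt N hi, i.tr_eq N j hi, norm_pow, norm_div, ← pow_mul,
    mul_comm N 2, pow_mul, ← mul_pow, div_pow]
  have h2 : ‖v (j.τ x) i.e i.ξ‖ = ‖v (i.τ x) i.e i.ξ‖ :=
    hV.form.inv _ _ _ (by rw [hp]; exact i.at' hi) hp i.ξ
  have h3 := norm_pos_iff.2 (i.v_ne hi)
  have h4 := norm_pos_iff.2 (i.ne x hi)
  rw [h2]
  congr 1
  field_simp

variable [IsManifold 𝓘(ℂ, Cm n) ω X] [Nonempty {x : X // x ∉ Z}]

/-- the property of the volume measure -/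
def VolV (p : E → X) (v : E → Chart n X → (Fin R → Cm n) → H) (Z : Set X)
    [Nonempty {x : X // x ∉ Z}] [MeasurableSpace {x : X // x ∉ Z}]
    (h : Chart n X → Cm n → Matrix (Fin n) (Fin n) ℂ) (μ : Measure {x : X // x ∉ Z}) : Prop :=
  ∀ (i : Fr p v Z) (f : {x : X // x ∉ Z} → ℝ≥0∞), Measurable f →
    (∀ x, x ∉ i.c.source → f x = 0) → ∫⁻ x, f x ∂μ =
      ∫⁻ z in i.c.target, f (i.c.symm z) * ENNReal.ofReal ((h i.e z).det.re)

/-- **K8k**: the Kähler manifold `X \ Z` with the bundle `O(N)` -/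
def kaV [MeasurableSpace {x : X // x ∉ Z}] (hV : VD m p v Z)
    (h : Chart n X → Cm n → Matrix (Fin n) (Fin n) ℂ) (hh : KOff Z h) (N : ℕ)
    (μ : Measure {x : X // x ∉ Z}) (hμ : VolV p v Z h μ) : KA n {x : X // x ∉ Z} where
  I := Fr p v Z
  e i := i.c
  w i := h i.e
  φ i := i.wt N
  a i j := i.tr N j
  μ := μ
  cover x := by
    obtain ⟨y, hy⟩ := hV.surj x.1
    have hyZ : p y ∉ Z := by rw [hy]; exact x.2
    have he : At (chartAt (Cm n) (p y) : Chart n X) (p y) :=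
      ⟨chart_mem_atlas _ _, mem_chart_source _ _⟩
    obtain ⟨ξ, hξ⟩ := nz_chart hV.form (hV.nz y hyZ) he
    have h1 : innerSL ℂ (v y (chartAt (Cm n) (p y)) ξ) (v y (chartAt (Cm n) (p y)) ξ) ≠ 0 := by
      rw [innerSL_apply_apply]
      exact inner_self_ne_zero.2 hξ
    obtain ⟨i, -, -, -, h2, -⟩ := hV.exists_fr hyZ he h1
    exact ⟨i, by rw [Fr.mem_source, ← hy]; exact h2⟩
  wsm i z hz j k := by
    obtain ⟨x, hx, rfl, -⟩ := Fr.exists_of_target hz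
    exact hh.smooth i.e x (i.at hx) (i.UZ x hx) j k
  wpos i z hz := by
    obtain ⟨x, hx, rfl, -⟩ := Fr.exists_of_target hz
    exact hh.posDef i.e x (i.at hx) (i.UZ x hx)
  wcl i z hz j k l := by
    obtain ⟨x, hx, rfl, -⟩ := Fr.exists_of_target hz
    exact hh.closed i.e x (i.at hx) (i.UZ x hx) j k l
  φsm i z hz := by
    obtain ⟨x, hx, rfl, -⟩ := Fr.exists_of_target hz
    exact hV.wt_smooth N i hx
  hol i j z hz hz' := by
    refine AnalyticAt.congr ?_ (Fr.ev_c j hz).symm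
    rw [Fr.mem_source, Fr.c_symm hz] at hz'
    obtain ⟨x, hx, rfl, h1⟩ := Fr.exists_of_target hz
    rw [h1] at hz'
    exact (transition (i.at hx) (j.at hz')).analyticAt
  wch i j x hi hj := by
    rw [Fr.jacM_c (i := i) (j := j) hi]
    exact hh.change i.e j.e x.1 (i.at hi) (j.at hj) x.2
  ahol i j z hz hz' := by
    rw [Fr.mem_source, Fr.c_symm hz] at hz'
    obtain ⟨x, hx, rfl, h1⟩ := Fr.exists_of_target hz
    rw [h1] at hz'
    exact hV.tr_an N i j hx hz'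
  coc i j k x hi hj hk := hV.tr_coc N i j k hi hj hk
  aself i x hi := VD.tr_self N i hi
  φch i j x hi hj := hV.wt_ch N i j hi hj
  hμ := hμ

/-- the volume measure exists -/
theorem exists_vol (hM : MeasStmt) [T2Space X] [CompactSpace X]
    [MeasurableSpace {x : X // x ∉ Z}] [BorelSpace {x : X // x ∉ Z}] (hV : VD m p v Z)
    {h : Chart n X → Cm n → Matrix (Fin n) (Fin n) ℂ} (hh : KOff Z h) :
    ∃ μ : Measure {x : X // x ∉ Z}, VolV p v Z h μ := by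
  have : SecondCountableTopology X := ChartedSpace.secondCountable_of_sigmaCompact (Cm n) X
  have : LocallyCompactSpace {x : X // x ∉ Z} := by
    have := ChartedSpace.locallyCompactSpace (Cm n) X
    exact (hV.closed.isOpen_compl.isOpenEmbedding_subtypeVal).locallyCompactSpace
  have : SecondCountableTopology {x : X // x ∉ Z} :=
    Topology.IsInducing.subtypeVal.secondCountableTopology
  have : SigmaCompactSpace {x : X // x ∉ Z} := inferInstance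
  have hpos : ∀ (i : Fr p v Z), ∀ z ∈ i.c.target, 0 < (h i.e z).det.re := by
    intro i z hz
    obtain ⟨x, hx, rfl, -⟩ := Fr.exists_of_target hz
    exact (Complex.pos_iff.1 (hh.posDef i.e x (i.at hx) (i.UZ x hx)).det_pos).1
  refine (hM n {x : X // x ∉ Z} (Fr p v Z) (fun i => i.c) (fun i z => (h i.e z).det.re)
    ?_ ?_ ?_ hpos ?_).imp fun μ hμ i f hf h0 => hμ i f hf h0
  · intro x
    obtain ⟨y, hy⟩ := hV.surj x.1
    have hyZ : p y ∉ Z := by rw [hy]; exact x.2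
    have he : At (chartAt (Cm n) (p y) : Chart n X) (p y) :=
      ⟨chart_mem_atlas _ _, mem_chart_source _ _⟩
    obtain ⟨ξ, hξ⟩ := nz_chart hV.form (hV.nz y hyZ) he
    have h1 : innerSL ℂ (v y (chartAt (Cm n) (p y)) ξ) (v y (chartAt (Cm n) (p y)) ξ) ≠ 0 := by
      rw [innerSL_apply_apply]
      exact inner_self_ne_zero.2 hξ
    obtain ⟨i, -, -, -, h2, -⟩ := hV.exists_fr hyZ he h1
    exact ⟨i, by rw [Fr.mem_source, ← hy]; exact h2⟩
  · intro i j z hz hz'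
    refine AnalyticAt.congr ?_ (Fr.ev_c j hz).symm
    rw [Fr.mem_source, Fr.c_symm hz] at hz'
    obtain ⟨x, hx, rfl, h1⟩ := Fr.exists_of_target hz
    rw [h1] at hz'
    exact (transition (i.at hx) (j.at hz')).analyticAt
  · intro i z hz
    obtain ⟨x, hx, rfl, -⟩ := Fr.exists_of_target hz
    have h1 : ContinuousAt (fun z => h i.e z) (i.e x) := by
      refine continuousAt_pi.2 fun j => continuousAt_pi.2 fun k => ?_
      exact (hh.smooth i.e x (i.at hx) (i.UZ x hx) j k).continuousAt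
    exact (Complex.continuous_re.continuousAt.comp
      ((continuous_id.matrix_det.continuousAt (x := h i.e (i.e x))).comp h1)).continuousWithinAt
  · intro i j x hi hj
    show (h i.e (i.e x.1)).det.re = _ * (h j.e (j.e x.1)).det.re
    rw [Fr.jacM_c (i := i) (j := j) hi, hh.change i.e j.e x.1 (i.at hi) (j.at hj) x.2,
      Matrix.det_mul, Matrix.det_mul, Matrix.det_transpose]
    have h1 : ((jacM i.e j.e x.1).map (starRingEnd ℂ)).det = (starRingEnd ℂ) (jacM i.e j.e x.1).det := by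
      rw [RingHom.map_det]; rfl
    rw [h1, mul_right_comm, Complex.mul_conj, Complex.re_ofReal_mul, Complex.normSq_eq_norm_sq]

end

end Vale.Agent.P284.H47.K
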