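import Vale.Agent.P284.H47.K.CutV
import Vale.Agent.P284.H553.K8.Link

/-!
# P284 (helper47), K8k, part 4: the interface `KL` of helper553
-/

open scoped Manifold ContDiff Topology ComplexConjugate ComplexOrder ENNReal InnerProductSpace
open Filter Set Metric MeasureTheory

noncomputable section

namespace Vale.Agent.P284.H47.K

open Vale.Agent.P272.K Vale.Agent.P284.H573 Vale.Agent.P284.H395 Vale.Agent.P284.H894.G
  Vale.Agent.P284.H837 Vale.Agent.P284.H335 Vale.Agent.P284.H608.K Vale.Agent.P284.H998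
  Vale.Agent.P284.H998.U Vale.Agent.P284.H553.K8

section
variable {n R m : ℕ} {X E : Type} [TopologicalSpace X] [ChartedSpace (Cm n) X]
  [TopologicalSpace E] {p : E → X} {H : Type} [NormedAddCommGroup H] [InnerProductSpace ℂ H]
  [CompleteSpace H] {v : E → Chart n X → (Fin R → Cm n) → H}
  [IsManifold 𝓘(ℂ, Cm n) ω X] [Nonempty (MZ p v)] [MeasurableSpace X]

/-- the framed charts of `kaV` -/
def klV (hV : VD m p v (Zs p v)) (h : Chart n X → Cm n → Matrix (Fin n) (Fin n) ℂ)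
    (hh : KOff (Zs p v) h) (N : ℕ) (μ : Measure (MZ p v)) (hμ : VolV p v (Zs p v) h μ) :
    KL p v h N (kaV hV h hh N μ hμ) where
  e i := i.e
  U i := i.U
  τ i := i.τ
  ξ i := i.ξ
  ℓ i := i.ℓ
  he i := i.he
  hU i := i.Uo
  hUe i := i.Ue
  hUZ i := i.UZ
  hτ i := i.pτ
  hτc i := i.τc
  hne i := i.ne
  src _ := rfl
  tgt _ := rfl
  app _ _ := rfl
  symm _ _ hz := Fr.c_symm hz
  w _ _ _ := rfl
  φ i z hz := by
    obtain ⟨x, hx, rfl, -⟩ := Fr.exists_of_target hz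
    have h1 := norm_pos_iff.2 (i.W_ne hx)
    have h2 := norm_pos_iff.2 (i.ℓW_ne hx)
    show (N : ℝ) * Real.log (‖i.W (i.e x)‖ ^ 2 / ‖i.ℓ (i.W (i.e x))‖ ^ 2) = _
    rw [Real.log_div (by positivity) (by positivity)]
    rfl
  a _ _ _ _ _ := rfl

omit [CompleteSpace H] [IsManifold 𝓘(ℂ, Cm n) ω X] [Nonempty (MZ p v)] [MeasurableSpace X] in
/-- the data `VD` for the zero set of `v` -/
theorem vD_zs [CompleteSpace H] [IsManifold 𝓘(ℂ, Cm n) ω X] (hp : IsCoveringMap p)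
    (hs : Function.Surjective p) (hv : HForm n R m p H v) (hm : 1 ≤ m)
    (hd : ∀ y e, At e (p y) → DecId n R m (v y e)) : VD m p v (Zs p v) :=
  vD_of hp hs hv hm hd (Zs_closed hv hs hp.isLocalHomeomorph) fun _ h => nz_of_notMem h rfl

/-- the curvature of `kaV` -/
theorem kaV_cHess (hV : VD m p v (Zs p v)) (h : Chart n X → Cm n → Matrix (Fin n) (Fin n) ℂ)
    (hh : KOff (Zs p v) h) (N : ℕ) (μ : Measure (MZ p v)) (hμ : VolV p v (Zs p v) h μ)
    {ρ : Chart n X → Cm n → Matrix (Fin n) (Fin n) ℂ}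
    (hρ : ∀ (y : E) (e : Chart n X), At e (p y) → ∀ V : Cm n × (Fin R → Cm n) → H,
        (∀ ξ, AnalyticAt ℂ V (e (p y), ξ)) → (∀ᶠ y' in 𝓝 y, ∀ ξ, v y' e ξ = V (e (p y'), ξ)) →
        ∀ ξ, v y e ξ ≠ 0 →
          ρ e (e (p y)) = cHess (fun z => Real.log (‖V (z, ξ)‖ ^ 2)) (e (p y)))
    (i : (kaV hV h hh N μ hμ).I) : ∀ z ∈ ((kaV hV h hh N μ hμ).e i).target,
    cHess ((kaV hV h hh N μ hμ).φ i) z = (N : ℂ) • ρ (Fr.e i) z := by
  intro z hz
  obtain ⟨x, hx, rfl, -⟩ := Fr.exists_of_target hz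
  exact hV.cHess_wt_rho N i hx hρ

end

end Vale.Agent.P284.H47.K
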