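import Vale.Agent.P284.H47.K.KaV

/-!
# P284 (helper47), K8k, part 5: the volume measure in the charts of `X`
-/

open scoped Manifold ContDiff Topology ComplexConjugate ComplexOrder ENNReal InnerProductSpace
open Filter Set Metric MeasureTheory

noncomputable section

namespace Vale.Agent.P284.H47.K

open Vale.Agent.P272.K Vale.Agent.P284.H573 Vale.Agent.P284.H395 Vale.Agent.P284.H894.G
  Vale.Agent.P284.H837 Vale.Agent.P284.H335 Vale.Agent.P284.H608.K

open Classical in
/-- the point `x` of `X \ Z` -/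
def lift {X : Type} (Z : Set X) [hne : Nonempty {x : X // x ∉ Z}] (x : X) : {x : X // x ∉ Z} :=
  if h : x ∉ Z then ⟨x, h⟩ else hne.some

lemma lift_val {X : Type} {Z : Set X} [Nonempty {x : X // x ∉ Z}] {x : X} (h : x ∉ Z) :
    (lift Z x).1 = x := congrArg Subtype.val (dif_pos h)

lemma lift_coe {X : Type} {Z : Set X} [Nonempty {x : X // x ∉ Z}] (x : {x : X // x ∉ Z}) :
    lift Z x.1 = x := Subtype.ext (lift_val x.2)

/-- preimages under the inverse of a chart are measurable -/
lemma meas_symm {n : ℕ} {M : Type} [TopologicalSpace M] [MeasurableSpace M] [BorelSpace M]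
    (c : OpenPartialHomeomorph M (Cm n)) {A : Set M} (hA : MeasurableSet A) :
    MeasurableSet (c.target ∩ c.symm ⁻¹' A) := by
  have h1 : Measurable (fun z : c.target => c.symm z.1) :=
    (continuousOn_iff_continuous_domRestrict.1 c.continuousOn_symm).measurable
  have h2 : MeasurableSet {z : c.target | c.symm z.1 ∈ A} := h1 hA
  have h3 := MeasurableSet.subtype_image c.open_target.measurableSet h2
  convert h3 using 1
  ext z
  constructor
  · rintro ⟨a, b⟩
    exact ⟨⟨z, a⟩, b, rfl⟩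
  · rintro ⟨⟨z', a⟩, b, rfl⟩
    exact ⟨a, b⟩

section
variable {n R m : ℕ} {X E : Type} [TopologicalSpace X] [ChartedSpace (Cm n) X]
  [TopologicalSpace E] {p : E → X} {H : Type} [NormedAddCommGroup H] [InnerProductSpace ℂ H]
  [CompleteSpace H] {v : E → Chart n X → (Fin R → Cm n) → H} {Z : Set X}
  [Nonempty {x : X // x ∉ Z}]

omit [Nonempty {x : X // x ∉ Z}] in
/-- framed charts with a given chart -/
theorem VD.exists_fr_at (hV : VD m p v Z) {e : Chart n X} {x : X} (he : At e x) (hx : x ∉ Z) :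
    ∃ i : Fr p v Z, i.e = e ∧ x ∈ i.U := by
  obtain ⟨y, rfl⟩ := hV.surj x
  obtain ⟨ξ, hξ⟩ := nz_chart hV.form (hV.nz y hx) he
  have h1 : innerSL ℂ (v y e ξ) (v y e ξ) ≠ 0 := by
    rw [innerSL_apply_apply]
    exact inner_self_ne_zero.2 hξ
  obtain ⟨i, h2, -, -, h3, -⟩ := hV.exists_fr hx he h1
  exact ⟨i, h2, h3⟩

variable [MeasurableSpace {x : X // x ∉ Z}] [BorelSpace {x : X // x ∉ Z}]

/-- **the volume measure in a chart** -/
theorem vol_chart [SecondCountableTopology X] (hV : VD m p v Z)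
    {h : Chart n X → Cm n → Matrix (Fin n) (Fin n) ℂ} {μ : Measure {x : X // x ∉ Z}}
    (hμ : VolV p v Z h μ) {e : Chart n X} (he : e ∈ atlas (Cm n) X)
    {f : {x : X // x ∉ Z} → ℝ≥0∞} (hf : Measurable f) (h0 : ∀ x, x.1 ∉ e.source → f x = 0) :
    ∫⁻ x, f x ∂μ = ∫⁻ z in e.target ∩ e.symm ⁻¹' Zᶜ,
      f (lift Z (e.symm z)) * ENNReal.ofReal ((h e z).det.re) := by
  have : SecondCountableTopology {x : X // x ∉ Z} :=
    Topology.IsInducing.subtypeVal.secondCountableTopology
  set S : {i : Fr p v Z // i.e = e} → Set {x : X // x ∉ Z} := fun i => i.1.c.source with hS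
  obtain ⟨T, hT, hTu⟩ := TopologicalSpace.isOpen_iUnion_countable S fun i => i.1.c.open_source
  have hcov : ∀ x : {x : X // x ∉ Z}, x.1 ∈ e.source → ∃ i ∈ T, x ∈ S i := by
    intro x hx
    obtain ⟨i, h1, h2⟩ := hV.exists_fr_at ⟨he, hx⟩ x.2
    have h3 : x ∈ ⋃ i, S i := mem_iUnion.2 ⟨⟨i, h1⟩, h2⟩
    rw [← hTu] at h3
    simpa using h3
  have hlift : ∀ z ∈ e.target ∩ e.symm ⁻¹' Zᶜ, (lift Z (e.symm z)).1 = e.symm z :=
    fun z hz => lift_val hz.2
  rcases T.eq_empty_or_nonempty with hTe | hTne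
  · have h1 : ∀ x, f x = 0 := by
      intro x
      by_cases hx : x.1 ∈ e.source
      · obtain ⟨i, hi, -⟩ := hcov x hx
        rw [hTe] at hi
        exact absurd hi (notMem_empty _)
      · exact h0 x hx
    simp [h1]
  obtain ⟨g, hg⟩ := hT.exists_eq_range hTne
  set A : ℕ → Set {x : X // x ∉ Z} := disjointed fun k => S (g k) with hA
  have hAm : ∀ k, MeasurableSet (A k) := fun k =>
    MeasurableSet.disjointed (fun k => (g k).1.c.open_source.measurableSet) k
  have hAs : ∀ k, A k ⊆ S (g k) := fun k => disjointed_subset _ k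
  have hAd : Pairwise (Function.onFun Disjoint A) := disjoint_disjointed _
  have hAu : ∀ x : {x : X // x ∉ Z}, x.1 ∈ e.source → ∃ k, x ∈ A k := by
    intro x hx
    obtain ⟨i, hi, hxi⟩ := hcov x hx
    rw [hg] at hi
    obtain ⟨k, rfl⟩ := hi
    have h1 : x ∈ ⋃ k, S (g k) := mem_iUnion.2 ⟨k, hxi⟩
    rw [← iUnion_disjointed] at h1
    exact mem_iUnion.1 h1
  set B : ℕ → Set (Cm n) := fun k => (g k).1.c.target ∩ (g k).1.c.symm ⁻¹' A k with hB
  have hBm : ∀ k, MeasurableSet (B k) := fun k => meas_symm _ (hAm k)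
  have hsymm : ∀ k, ∀ z ∈ (g k).1.c.target, (g k).1.c.symm z = lift Z (e.symm z) ∧
      z ∈ e.target ∧ e.symm z ∉ Z := by
    intro k z hz
    have h1 := Fr.c_symm hz
    have h2 : (g k).1.e = e := (g k).2
    rw [h2] at h1
    have h3 : e.symm z ∉ Z := by rw [← h1]; exact ((g k).1.c.symm z).2
    refine ⟨Subtype.ext (by rw [h1, lift_val h3]), ?_, h3⟩
    have h4 := (Fr.mem_target.1 hz).1
    rw [h2] at h4
    exact h4
  have hBd : Pairwise (Function.onFun Disjoint B) := by
    intro k l hkl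
    refine Set.disjoint_left.2 fun z hz hz' => ?_
    have h1 := hz.2
    have h2 := hz'.2
    rw [mem_preimage, (hsymm k z hz.1).1] at h1
    rw [mem_preimage, (hsymm l z hz'.1).1] at h2
    exact Set.disjoint_left.1 (hAd hkl) h1 h2
  have hBu : (⋃ k, B k) = e.target ∩ e.symm ⁻¹' Zᶜ := by
    ext z
    constructor
    · intro hz
      obtain ⟨k, hk⟩ := mem_iUnion.1 hz
      exact ⟨(hsymm k z hk.1).2.1, (hsymm k z hk.1).2.2⟩
    · intro hz
      have h1 := hlift z hz
      obtain ⟨k, hk⟩ := hAu (lift Z (e.symm z)) (by rw [h1]; exact e.map_target hz.1)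
      refine mem_iUnion.2 ⟨k, ?_⟩
      have h2 : z ∈ (g k).1.c.target := by
        have h3 := hAs k hk
        refine Fr.mem_target.2 ?_
        rw [(g k).2]
        refine ⟨hz.1, ?_⟩
        have h4 := Fr.mem_source.1 h3
        rw [h1] at h4
        exact h4
      exact ⟨h2, by rw [mem_preimage, (hsymm k z h2).1]; exact hk⟩
  -- the left-hand side
  have hL : ∫⁻ x, f x ∂μ = ∑' k, ∫⁻ x, (A k).indicator f x ∂μ := by
    have h1 : f = (⋃ k, A k).indicator f := by
      funext x
      by_cases hx : x ∈ ⋃ k, A k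
      · rw [indicator_of_mem hx]
      · rw [indicator_of_notMem hx]
        refine h0 x fun h => hx ?_
        exact mem_iUnion.2 (hAu x h)
    calc ∫⁻ x, f x ∂μ = ∫⁻ x, (⋃ k, A k).indicator f x ∂μ := by rw [← h1]
      _ = ∫⁻ x in ⋃ k, A k, f x ∂μ := lintegral_indicator (MeasurableSet.iUnion hAm) f
      _ = ∑' k, ∫⁻ x in A k, f x ∂μ := lintegral_iUnion hAm hAd f
      _ = _ := by
        congr 1
        funext k
        rw [lintegral_indicator (hAm k)]
  rw [hL, ← hBu, lintegral_iUnion hBm hBd]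
  congr 1
  funext k
  rw [hμ (g k).1 ((A k).indicator f) (hf.indicator (hAm k)) fun x hx =>
    indicator_of_notMem (fun h => hx (hAs k h)) f]
  have h1 : ∀ z ∈ (g k).1.c.target, (A k).indicator f ((g k).1.c.symm z) *
      ENNReal.ofReal ((h (g k).1.e z).det.re) =
      (B k).indicator (fun z => f (lift Z (e.symm z)) * ENNReal.ofReal ((h e z).det.re)) z := by
    intro z hz
    rw [(g k).2]
    by_cases hzA : (g k).1.c.symm z ∈ A k
    · rw [indicator_of_mem hzA, indicator_of_mem (show z ∈ B k from ⟨hz, hzA⟩),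
        (hsymm k z hz).1]
    · rw [indicator_of_notMem hzA, indicator_of_notMem (fun h : z ∈ B k => hzA h.2), zero_mul]
  rw [setLIntegral_congr_fun (g k).1.c.open_target.measurableSet h1,
    setLIntegral_indicator (hBm k)]
  congr 2
  exact inter_eq_left.2 fun z hz => hz.1

end

end Vale.Agent.P284.H47.K
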